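import Vale.Agent.P369.H400G.Tens

/-!
P369 (helper791): traces and partial traces do not depend on the number basis.
-/

set_option linter.all false

namespace Vale.Agent.P369Y.Ptr

open scoped InnerProductSpace ENNReal Topology
open Vale.Agent.P369 Vale.Agent.P369.Sys Filter

noncomputable section

section basis

variable {H K : Type} [NormedAddCommGroup H] [InnerProductSpace ℂ H] [CompleteSpace H]
  [NormedAddCommGroup K] [InnerProductSpace ℂ K] [CompleteSpace K] {ι κ : Type}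

/-- the Hilbert basis of a number basis -/
def hbas {e : ι → H} (he : IsNumberBasis e) : HilbertBasis ι ℂ H :=
  HilbertBasis.mk he.1 (by
    rw [top_le_iff]
    exact (Submodule.dense_iff_topologicalClosure_eq_top).1 he.2)

theorem hbas_apply {e : ι → H} (he : IsNumberBasis e) (i : ι) : hbas he i = e i := by
  unfold hbas
  rw [HilbertBasis.coe_mk]

theorem hasSum_inner_mul {e : ι → H} (he : IsNumberBasis e) (x y : H) :
    HasSum (fun i => ⟪x, e i⟫_ℂ * ⟪e i, y⟫_ℂ) ⟪x, y⟫_ℂ := by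
  have h := (hbas he).hasSum_inner_mul_inner x y
  simpa only [hbas_apply] using h

theorem re_inner_self (x : H) : (⟪x, x⟫_ℂ).re = ‖x‖ ^ 2 := by
  rw [inner_self_eq_norm_sq_to_K]; norm_cast

theorem hasSum_inner_sq' (b : HilbertBasis ι ℂ H) (x : H) :
    HasSum (fun i => ‖⟪b i, x⟫_ℂ‖ ^ 2) (‖x‖ ^ 2) := by
  have h := Complex.hasSum_re (b.hasSum_inner_mul_inner x x)
  rw [re_inner_self] at h
  have e : (fun i => ‖⟪b i, x⟫_ℂ‖ ^ 2) = fun i => (⟪x, b i⟫_ℂ * ⟪b i, x⟫_ℂ).re := by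
    funext i
    rw [← inner_conj_symm x (b i), ← Complex.normSq_eq_conj_mul_self, Complex.ofReal_re,
      Complex.normSq_eq_norm_sq]
  rw [e]
  exact h

theorem hasSum_inner_sq {e : ι → H} (he : IsNumberBasis e) (x : H) :
    HasSum (fun i => ‖⟪e i, x⟫_ℂ‖ ^ 2) (‖x‖ ^ 2) := by
  have h := hasSum_inner_sq' (hbas he) x
  simpa only [hbas_apply] using h

theorem tsum_enorm_sq' (b : HilbertBasis ι ℂ H) (x : H) :
    ∑' i, ENNReal.ofReal (‖⟪b i, x⟫_ℂ‖ ^ 2) = ENNReal.ofReal (‖x‖ ^ 2) := by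
  have h := hasSum_inner_sq' b x
  rw [← h.tsum_eq, ENNReal.ofReal_tsum_of_nonneg (fun _ => by positivity) h.summable]

/-- the sum of `‖A (e i)‖ ^ 2` in terms of the adjoint -/
theorem hs_adjoint (b : HilbertBasis ι ℂ H) (c : HilbertBasis κ ℂ K) (A : H →L[ℂ] K) :
    ∑' i, ENNReal.ofReal (‖A (b i)‖ ^ 2) =
      ∑' k, ENNReal.ofReal (‖ContinuousLinearMap.adjoint A (c k)‖ ^ 2) := by
  calc ∑' i, ENNReal.ofReal (‖A (b i)‖ ^ 2)
      = ∑' i, ∑' k, ENNReal.ofReal (‖⟪c k, A (b i)⟫_ℂ‖ ^ 2) := by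
        refine tsum_congr fun i => ?_
        rw [tsum_enorm_sq']
    _ = ∑' k, ∑' i, ENNReal.ofReal (‖⟪c k, A (b i)⟫_ℂ‖ ^ 2) := ENNReal.tsum_comm
    _ = _ := by
        refine tsum_congr fun k => ?_
        rw [← tsum_enorm_sq' b]
        refine tsum_congr fun i => ?_
        rw [ContinuousLinearMap.adjoint_inner_right, ← inner_conj_symm (c k), RCLike.norm_conj]

/-- Hilbert–Schmidt norms do not depend on the basis -/
theorem hs_eq {e : ι → H} {g : κ → H} (he : IsNumberBasis e) (hg : IsNumberBasis g)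
    (A : H →L[ℂ] K) :
    ∑' i, ENNReal.ofReal (‖A (e i)‖ ^ 2) = ∑' i, ENNReal.ofReal (‖A (g i)‖ ^ 2) := by
  obtain ⟨w, c, -⟩ := exists_hilbertBasis ℂ K
  have h1 := hs_adjoint (hbas he) c A
  have h2 := hs_adjoint (hbas hg) c A
  simp only [hbas_apply] at h1 h2
  rw [h1, h2]

theorem summable_iff_ne_top {f : ι → ℝ} (hf : ∀ i, 0 ≤ f i) :
    Summable f ↔ ∑' i, ENNReal.ofReal (f i) ≠ ⊤ := by
  constructor
  · intro h
    rw [← ENNReal.ofReal_tsum_of_nonneg hf h]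
    exact ENNReal.ofReal_ne_top
  · intro h
    have := ENNReal.summable_toReal h
    refine this.congr fun i => ?_
    exact ENNReal.toReal_ofReal (hf i)

theorem hs_hasSum {e : ι → H} {g : κ → H} (he : IsNumberBasis e) (hg : IsNumberBasis g)
    (A : H →L[ℂ] K) {s : ℝ} (h : HasSum (fun i => ‖A (e i)‖ ^ 2) s) :
    HasSum (fun i => ‖A (g i)‖ ^ 2) s := by
  have h0 : ∀ i, 0 ≤ ‖A (e i)‖ ^ 2 := fun i => by positivity
  have h1 : ∀ i, 0 ≤ ‖A (g i)‖ ^ 2 := fun i => by positivity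
  have e1 := hs_eq he hg A
  have s1 : Summable fun i => ‖A (g i)‖ ^ 2 := by
    rw [summable_iff_ne_top h1, ← e1, ← summable_iff_ne_top h0]
    exact h.summable
  rw [← ENNReal.ofReal_tsum_of_nonneg h0 h.summable,
    ← ENNReal.ofReal_tsum_of_nonneg h1 s1] at e1
  have e2 := (ENNReal.ofReal_eq_ofReal_iff (tsum_nonneg h0) (tsum_nonneg h1)).1 e1
  rw [← h.tsum_eq, e2]
  exact s1.hasSum

theorem hs_summable {e : ι → H} {g : κ → H} (he : IsNumberBasis e) (hg : IsNumberBasis g)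
    (A : H →L[ℂ] K) (h : Summable (fun i => ‖A (e i)‖ ^ 2)) :
    Summable (fun i => ‖A (g i)‖ ^ 2) := (hs_hasSum he hg A h.hasSum).summable

theorem sq_add_le (A B : H →L[ℂ] K) (x : H) :
    ‖(A + B) x‖ ^ 2 ≤ 2 * ‖A x‖ ^ 2 + 2 * ‖B x‖ ^ 2 := by
  have h : ‖(A + B) x‖ ≤ ‖A x‖ + ‖B x‖ := by
    rw [ContinuousLinearMap.add_apply]; exact norm_add_le _ _
  have h2 : ‖(A + B) x‖ ^ 2 ≤ (‖A x‖ + ‖B x‖) ^ 2 :=
    pow_le_pow_left₀ (norm_nonneg _) h 2
  nlinarith only [h2, sq_nonneg (‖A x‖ - ‖B x‖)]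

theorem summable_add {e : ι → H} {A B : H →L[ℂ] K} (hA : Summable (fun i => ‖A (e i)‖ ^ 2))
    (hB : Summable (fun i => ‖B (e i)‖ ^ 2)) : Summable (fun i => ‖(A + B) (e i)‖ ^ 2) :=
  Summable.of_nonneg_of_le (fun i => by positivity) (fun i => sq_add_le A B (e i))
    ((hA.mul_left 2).add (hB.mul_left 2))

theorem summable_smul {e : ι → H} {A : H →L[ℂ] K} (c : ℂ)
    (hA : Summable (fun i => ‖A (e i)‖ ^ 2)) : Summable (fun i => ‖(c • A) (e i)‖ ^ 2) := by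
  refine (hA.mul_left (‖c‖ ^ 2)).congr fun i => ?_
  rw [ContinuousLinearMap.smul_apply, norm_smul, mul_pow]

/-- polarization -/
theorem polar (x y : K) : ⟪x, y⟫_ℂ =
    ((‖x + y‖ ^ 2 : ℝ) : ℂ) / 4 - ((‖x + (-1 : ℂ) • y‖ ^ 2 : ℝ) : ℂ) / 4 +
      (((‖x + (-Complex.I) • y‖ ^ 2 : ℝ) : ℂ) / 4 -
        ((‖x + Complex.I • y‖ ^ 2 : ℝ) : ℂ) / 4) * Complex.I := by
  have h := inner_eq_sum_norm_sq_div_four (𝕜 := ℂ) x y
  rw [h]
  simp only [neg_smul, one_smul, ← sub_eq_add_neg, RCLike.I_to_complex, Complex.coe_algebraMap]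
  push_cast
  ring

/-- Hilbert–Schmidt inner products do not depend on the basis -/
theorem hs_inner {e : ι → H} {g : κ → H} (he : IsNumberBasis e) (hg : IsNumberBasis g)
    {A B : H →L[ℂ] K} (hA : Summable (fun i => ‖A (e i)‖ ^ 2))
    (hB : Summable (fun i => ‖B (e i)‖ ^ 2)) {c : ℂ}
    (h : HasSum (fun i => ⟪A (e i), B (e i)⟫_ℂ) c) :
    HasSum (fun i => ⟪A (g i), B (g i)⟫_ℂ) c := by
  have key : ∀ z : ℂ, ∃ s : ℝ, HasSum (fun i => ‖A (e i) + z • B (e i)‖ ^ 2) s ∧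
      HasSum (fun i => ‖A (g i) + z • B (g i)‖ ^ 2) s := by
    intro z
    have h1 := (summable_add hA (summable_smul z hB)).hasSum
    exact ⟨_, h1, hs_hasSum he hg (A + z • B) h1⟩
  obtain ⟨s1, a1, b1⟩ := key 1
  obtain ⟨s2, a2, b2⟩ := key (-1)
  obtain ⟨s3, a3, b3⟩ := key (-Complex.I)
  obtain ⟨s4, a4, b4⟩ := key Complex.I
  simp only [one_smul] at a1 b1
  have big : ∀ {μ : Type} (u v : μ → K), HasSum (fun i => ‖u i + v i‖ ^ 2) s1 →
      HasSum (fun i => ‖u i + (-1 : ℂ) • v i‖ ^ 2) s2 →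
      HasSum (fun i => ‖u i + (-Complex.I) • v i‖ ^ 2) s3 →
      HasSum (fun i => ‖u i + Complex.I • v i‖ ^ 2) s4 →
      HasSum (fun i => ⟪u i, v i⟫_ℂ)
        ((s1 : ℂ) / 4 - (s2 : ℂ) / 4 + ((s3 : ℂ) / 4 - (s4 : ℂ) / 4) * Complex.I) := by
    intro μ u v t1 t2 t3 t4
    have e : (fun i => ⟪u i, v i⟫_ℂ) = fun i =>
        ((‖u i + v i‖ ^ 2 : ℝ) : ℂ) / 4 - ((‖u i + (-1 : ℂ) • v i‖ ^ 2 : ℝ) : ℂ) / 4 +
      (((‖u i + (-Complex.I) • v i‖ ^ 2 : ℝ) : ℂ) / 4 -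
        ((‖u i + Complex.I • v i‖ ^ 2 : ℝ) : ℂ) / 4) * Complex.I := by
      funext i; exact polar _ _
    rw [e]
    exact (((Complex.hasSum_ofReal.2 t1).div_const 4).sub
      ((Complex.hasSum_ofReal.2 t2).div_const 4)).add
      ((((Complex.hasSum_ofReal.2 t3).div_const 4).sub
      ((Complex.hasSum_ofReal.2 t4).div_const 4)).mul_right _)
  have c1 := big (fun i => A (e i)) (fun i => B (e i)) a1 a2 a3 a4
  rw [h.unique c1]
  exact big (fun i => A (g i)) (fun i => B (g i)) b1 b2 b3 b4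

theorem pos_factor {T : K →L[ℂ] K} (hT : T.IsPositive) :
    ∃ S : K →L[ℂ] K, ∀ x y, ⟪x, T y⟫_ℂ = ⟪S x, S y⟫_ℂ := by
  have h0 : 0 ≤ T := (ContinuousLinearMap.nonneg_iff_isPositive T).mpr hT
  refine ⟨CFC.sqrt T, fun x y => ?_⟩
  have h1 : CFC.sqrt T * CFC.sqrt T = T := CFC.sqrt_mul_sqrt_self T h0
  have h2 : (CFC.sqrt T).IsPositive :=
    (ContinuousLinearMap.nonneg_iff_isPositive _).mp (CFC.sqrt_nonneg T)
  conv_lhs => rw [← h1]
  rw [ContinuousLinearMap.mul_def, ContinuousLinearMap.comp_apply]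
  exact (h2.inner_left_eq_inner_right x _).symm

/-- the trace of a positive operator does not depend on the basis -/
theorem trace_indep {e : ι → H} {g : κ → H} (he : IsNumberBasis e) (hg : IsNumberBasis g)
    {T : H →L[ℂ] H} (hT : T.IsPositive) {c : ℂ} (h : HasSum (fun i => ⟪e i, T (e i)⟫_ℂ) c) :
    HasSum (fun i => ⟪g i, T (g i)⟫_ℂ) c := by
  obtain ⟨S, hS⟩ := pos_factor hT
  simp only [hS] at h ⊢
  have h1 : Summable fun i => ‖S (e i)‖ ^ 2 := by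
    refine (Complex.hasSum_re h).summable.congr fun i => ?_
    exact re_inner_self _
  exact hs_inner he hg h1 h1 h

theorem trace_iff {e : ι → H} {g : κ → H} (he : IsNumberBasis e) (hg : IsNumberBasis g)
    {T : H →L[ℂ] H} (hT : T.IsPositive) (c : ℂ) : HasSum (fun i => ⟪e i, T (e i)⟫_ℂ) c ↔
    HasSum (fun i => ⟪g i, T (g i)⟫_ℂ) c :=
  ⟨trace_indep he hg hT, trace_indep hg he hT⟩

/-- the trace of a positive operator does not depend on the basis -/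
theorem tsum_re_eq {e : ι → H} {g : κ → H} (he : IsNumberBasis e) (hg : IsNumberBasis g)
    {T : H →L[ℂ] H} (hT : T.IsPositive) :
    ∑' i, (⟪e i, T (e i)⟫_ℂ).re = ∑' i, (⟪g i, T (g i)⟫_ℂ).re := by
  obtain ⟨S, hS⟩ := pos_factor hT
  simp only [hS, re_inner_self]
  by_cases h : Summable fun i => ‖S (e i)‖ ^ 2
  · rw [(hs_hasSum he hg S h.hasSum).tsum_eq]
  · have h2 : ¬ Summable fun i => ‖S (g i)‖ ^ 2 := fun h3 => h (hs_summable hg he S h3)
    rw [tsum_eq_zero_of_not_summable h, tsum_eq_zero_of_not_summable h2]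

/-! ### extension from the basis vectors -/

theorem hasSum_span {μ : Type} {e : ι → H} {A : μ → H →L[ℂ] K} {ρ : H →L[ℂ] H}
    (h : ∀ m m', HasSum (fun l => ⟪A l (e m), A l (e m')⟫_ℂ) ⟪e m, ρ (e m')⟫_ℂ) :
    ∀ φ ∈ Submodule.span ℂ (Set.range e), ∀ φ' ∈ Submodule.span ℂ (Set.range e),
      HasSum (fun l => ⟪A l φ, A l φ'⟫_ℂ) ⟪φ, ρ φ'⟫_ℂ := by
  intro φ hφ φ' hφ'
  refine Submodule.span_induction (p := fun φ _ =>
    HasSum (fun l => ⟪A l φ, A l φ'⟫_ℂ) ⟪φ, ρ φ'⟫_ℂ) ?_ ?_ ?_ ?_ hφ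
  · rintro _ ⟨m, rfl⟩
    refine Submodule.span_induction (p := fun φ' _ =>
      HasSum (fun l => ⟪A l (e m), A l φ'⟫_ℂ) ⟪e m, ρ φ'⟫_ℂ) ?_ ?_ ?_ ?_ hφ'
    · rintro _ ⟨m', rfl⟩
      exact h m m'
    · simp only [map_zero, inner_zero_right]
      exact hasSum_zero
    · intro x y _ _ hx hy
      simp only [map_add, inner_add_right]
      exact hx.add hy
    · intro c x _ hx
      simp only [map_smul, inner_smul_right]
      exact hx.mul_left c
  · simp only [map_zero, inner_zero_left]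
    exact hasSum_zero
  · intro x y _ _ hx hy
    simp only [map_add, inner_add_left]
    exact hx.add hy
  · intro c x _ hx
    simp only [map_smul, inner_smul_left]
    exact hx.mul_left _

theorem partial_le {μ : Type} {e : ι → H} (he : IsNumberBasis e) {A : μ → H →L[ℂ] K}
    {ρ : H →L[ℂ] H}
    (h : ∀ m m', HasSum (fun l => ⟪A l (e m), A l (e m')⟫_ℂ) ⟪e m, ρ (e m')⟫_ℂ)
    (F : Finset μ) (φ : H) : ∑ l ∈ F, ‖A l φ‖ ^ 2 ≤ (⟪φ, ρ φ⟫_ℂ).re := by
  have hc : IsClosed {φ : H | ∑ l ∈ F, ‖A l φ‖ ^ 2 ≤ (⟪φ, ρ φ⟫_ℂ).re} := by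
    refine isClosed_le ?_ ?_
    · exact continuous_finset_sum _ fun l _ => ((A l).continuous.norm).pow 2
    · exact Complex.continuous_re.comp (continuous_id.inner ρ.continuous)
  have hs : (Submodule.span ℂ (Set.range e) : Set H) ⊆
      {φ : H | ∑ l ∈ F, ‖A l φ‖ ^ 2 ≤ (⟪φ, ρ φ⟫_ℂ).re} := by
    intro φ hφ
    have h1 := Complex.hasSum_re (hasSum_span h φ hφ φ hφ)
    simp only [re_inner_self] at h1
    exact sum_le_hasSum F (fun _ _ => by positivity) h1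
  have h2 := he.2.closure_eq
  have h3 : φ ∈ closure (Submodule.span ℂ (Set.range e) : Set H) := by
    rw [h2]; exact Set.mem_univ _
  exact (closure_minimal hs hc) h3

theorem summable_all {μ : Type} {e : ι → H} (he : IsNumberBasis e) {A : μ → H →L[ℂ] K}
    {ρ : H →L[ℂ] H}
    (h : ∀ m m', HasSum (fun l => ⟪A l (e m), A l (e m')⟫_ℂ) ⟪e m, ρ (e m')⟫_ℂ) (φ : H) :
    Summable fun l => ‖A l φ‖ ^ 2 :=
  summable_of_sum_le (fun _ => by positivity) fun F => partial_le he h F φ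

/-- the operator `φ ↦ (A l φ)_l` -/
def colL {μ : Type} {e : ι → H} (he : IsNumberBasis e) {A : μ → H →L[ℂ] K}
    {ρ : H →L[ℂ] H}
    (h : ∀ m m', HasSum (fun l => ⟪A l (e m), A l (e m')⟫_ℂ) ⟪e m, ρ (e m')⟫_ℂ) :
    H →ₗ[ℂ] lp (fun _ : μ => K) 2 where
  toFun φ := ⟨fun l => A l φ, by
    refine memℓp_gen ?_
    simpa only [ENNReal.toReal_ofNat, Real.rpow_ofNat] using summable_all he h φ⟩
  map_add' x y := by
    apply Subtype.ext
    funext l
    exact map_add _ _ _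
  map_smul' c x := by
    apply Subtype.ext
    funext l
    exact map_smul _ _ _

theorem norm_colL {μ : Type} {e : ι → H} (he : IsNumberBasis e) {A : μ → H →L[ℂ] K}
    {ρ : H →L[ℂ] H}
    (h : ∀ m m', HasSum (fun l => ⟪A l (e m), A l (e m')⟫_ℂ) ⟪e m, ρ (e m')⟫_ℂ) (φ : H) :
    ‖colL he h φ‖ ≤ Real.sqrt ‖ρ‖ * ‖φ‖ := by
  have h1 : HasSum (fun l => ‖A l φ‖ ^ 2) (‖colL he h φ‖ ^ 2) := by
    have := lp.hasSum_norm (p := 2) (E := fun _ : μ => K) (by norm_num) (colL he h φ)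
    simp only [ENNReal.toReal_ofNat, Real.rpow_ofNat] at this
    exact this
  have h2 : ‖colL he h φ‖ ^ 2 ≤ (⟪φ, ρ φ⟫_ℂ).re :=
    hasSum_le_of_sum_le h1 fun F => partial_le he h F φ
  have h3 : (⟪φ, ρ φ⟫_ℂ).re ≤ ‖ρ‖ * ‖φ‖ ^ 2 := by
    calc (⟪φ, ρ φ⟫_ℂ).re ≤ ‖φ‖ * ‖ρ φ‖ :=
          (Complex.re_le_norm _).trans (norm_inner_le_norm _ _)
      _ ≤ ‖φ‖ * (‖ρ‖ * ‖φ‖) := by gcongr; exact ρ.le_opNorm _
      _ = _ := by ring
  refine abs_le_of_sq_le_sq' ?_ (by positivity) |>.2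
  rw [mul_pow, Real.sq_sqrt (norm_nonneg _)]
  exact h2.trans h3

/-- partial traces: from the basis vectors to all vectors -/
theorem hasSum_all {μ : Type} {e : ι → H} (he : IsNumberBasis e) {A : μ → H →L[ℂ] K}
    {ρ : H →L[ℂ] H}
    (h : ∀ m m', HasSum (fun l => ⟪A l (e m), A l (e m')⟫_ℂ) ⟪e m, ρ (e m')⟫_ℂ) (φ φ' : H) :
    HasSum (fun l => ⟪A l φ, A l φ'⟫_ℂ) ⟪φ, ρ φ'⟫_ℂ := by
  let V : H →L[ℂ] lp (fun _ : μ => K) 2 := (colL he h).mkContinuous _ (norm_colL he h)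
  have hV : ∀ φ φ', HasSum (fun l => ⟪A l φ, A l φ'⟫_ℂ) ⟪V φ, V φ'⟫_ℂ := fun φ φ' =>
    lp.hasSum_inner (V φ) (V φ')
  have key : ⟪V φ, V φ'⟫_ℂ = ⟪φ, ρ φ'⟫_ℂ := by
    have hc : IsClosed {q : H × H | ⟪V q.1, V q.2⟫_ℂ = ⟪q.1, ρ q.2⟫_ℂ} := by
      refine isClosed_eq ?_ ?_
      · exact (V.continuous.comp continuous_fst).inner (V.continuous.comp continuous_snd)
      · exact continuous_fst.inner (ρ.continuous.comp continuous_snd)
    have hs : ((Submodule.span ℂ (Set.range e) : Set H) ×ˢ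
        (Submodule.span ℂ (Set.range e) : Set H)) ⊆
        {q : H × H | ⟪V q.1, V q.2⟫_ℂ = ⟪q.1, ρ q.2⟫_ℂ} := by
      rintro ⟨x, y⟩ ⟨hx, hy⟩
      exact (hV x y).unique (hasSum_span h x hx y hy)
    have h2 : (φ, φ') ∈ closure ((Submodule.span ℂ (Set.range e) : Set H) ×ˢ
        (Submodule.span ℂ (Set.range e) : Set H)) := by
      rw [closure_prod_eq, he.2.closure_eq]
      exact ⟨Set.mem_univ _, Set.mem_univ _⟩
    exact (closure_minimal hs hc) h2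
  rw [← key]
  exact hV φ φ'

end basis

section tensor

variable {H K : Type} [NormedAddCommGroup H] [InnerProductSpace ℂ H] [CompleteSpace H]
  [NormedAddCommGroup K] [InnerProductSpace ℂ K] [CompleteSpace K] {ι κ : Type}
  {t : H → H → K}

section aux

theorem eq_of_inner_sub {x : K} (h : ⟪x, x⟫_ℂ = 0) : x = 0 := inner_self_eq_zero.1 h

variable (ht : ∀ a b c d, ⟪t a b, t c d⟫_ℂ = ⟪a, c⟫_ℂ * ⟪b, d⟫_ℂ)
include ht

theorem t_add_left (a a' b : H) : t (a + a') b = t a b + t a' b := by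
  rw [← sub_eq_zero]
  apply eq_of_inner_sub
  simp only [inner_sub_left, inner_sub_right, inner_add_left, inner_add_right, ht]
  ring

theorem t_add_right (a b b' : H) : t a (b + b') = t a b + t a b' := by
  rw [← sub_eq_zero]
  apply eq_of_inner_sub
  simp only [inner_sub_left, inner_sub_right, inner_add_left, inner_add_right, ht]
  ring

theorem t_smul_left (c : ℂ) (a b : H) : t (c • a) b = c • t a b := by
  rw [← sub_eq_zero]
  apply eq_of_inner_sub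
  simp only [inner_sub_left, inner_sub_right, inner_smul_left, inner_smul_right, ht]
  ring

theorem t_smul_right (c : ℂ) (a b : H) : t a (c • b) = c • t a b := by
  rw [← sub_eq_zero]
  apply eq_of_inner_sub
  simp only [inner_sub_left, inner_sub_right, inner_smul_left, inner_smul_right, ht]
  ring

theorem norm_t (a b : H) : ‖t a b‖ = ‖a‖ * ‖b‖ := by
  have h : ‖t a b‖ ^ 2 = (‖a‖ * ‖b‖) ^ 2 := by
    rw [← re_inner_self, ht, inner_self_eq_norm_sq_to_K, inner_self_eq_norm_sq_to_K, mul_pow]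
    norm_cast
  exact (sq_eq_sq₀ (norm_nonneg _) (by positivity)).1 h

end aux

/-- `a ↦ a ⊗ b` -/
def tL (ht : ∀ a b c d, ⟪t a b, t c d⟫_ℂ = ⟪a, c⟫_ℂ * ⟪b, d⟫_ℂ) (b : H) : H →L[ℂ] K :=
  LinearMap.mkContinuous
    { toFun := fun a => t a b
      map_add' := fun x y => t_add_left ht x y b
      map_smul' := fun c x => t_smul_left ht c x b } ‖b‖ fun a => by
    change ‖t a b‖ ≤ _
    rw [norm_t ht, mul_comm]

/-- `b ↦ a ⊗ b` -/
def tR (ht : ∀ a b c d, ⟪t a b, t c d⟫_ℂ = ⟪a, c⟫_ℂ * ⟪b, d⟫_ℂ) (a : H) : H →L[ℂ] K :=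
  LinearMap.mkContinuous
    { toFun := fun b => t a b
      map_add' := fun x y => t_add_right ht a x y
      map_smul' := fun c x => t_smul_right ht c a x } ‖a‖ fun b => by
    change ‖t a b‖ ≤ _
    rw [norm_t ht]

theorem tL_apply (ht : ∀ a b c d, ⟪t a b, t c d⟫_ℂ = ⟪a, c⟫_ℂ * ⟪b, d⟫_ℂ) (a b : H) :
    tL ht b a = t a b := rfl

theorem tR_apply (ht : ∀ a b c d, ⟪t a b, t c d⟫_ℂ = ⟪a, c⟫_ℂ * ⟪b, d⟫_ℂ) (a b : H) :
    tR ht a b = t a b := rfl

/-- the partial trace over the second factor does not depend on the bases -/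
theorem ptr_indep (ht : ∀ a b c d, ⟪t a b, t c d⟫_ℂ = ⟪a, c⟫_ℂ * ⟪b, d⟫_ℂ)
    {T : K →L[ℂ] K} (hT : T.IsPositive) {ρ : H →L[ℂ] H} {μ ν τ : Type}
    {e₁ : μ → H} {e₂ : ν → H} {g : τ → H}
    (h₁ : IsNumberBasis e₁) (h₂ : IsNumberBasis e₂) (hg : IsNumberBasis g)
    (h : ∀ m m', HasSum (fun l => ⟪t (e₁ m) (e₂ l), T (t (e₁ m') (e₂ l))⟫_ℂ)
      ⟪e₁ m, ρ (e₁ m')⟫_ℂ) (φ φ' : H) :
    HasSum (fun l => ⟪t φ (g l), T (t φ' (g l))⟫_ℂ) ⟪φ, ρ φ'⟫_ℂ := by
  obtain ⟨S, hS⟩ := pos_factor hT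
  simp only [hS] at h ⊢
  have h1 := hasSum_all (A := fun l => S ∘L tL ht (e₂ l)) h₁ (ρ := ρ) h φ φ'
  have s1 := summable_all (A := fun l => S ∘L tL ht (e₂ l)) h₁ (ρ := ρ) h φ
  have s2 := summable_all (A := fun l => S ∘L tL ht (e₂ l)) h₁ (ρ := ρ) h φ'
  exact hs_inner (A := S ∘L tR ht φ) (B := S ∘L tR ht φ') h₂ hg s1 s2 h1

end tensor

section norm

variable {H : Type} [NormedAddCommGroup H] [InnerProductSpace ℂ H] [CompleteSpace H]
  {ι κ : Type}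

theorem cauchy {T : H →L[ℂ] H} (hT : T.IsPositive) (x y : H) :
    ‖⟪x, T y⟫_ℂ‖ ^ 2 ≤ (⟪x, T x⟫_ℂ).re * (⟪y, T y⟫_ℂ).re := by
  obtain ⟨S, hS⟩ := pos_factor hT
  rw [hS, hS, hS, re_inner_self, re_inner_self, ← mul_pow]
  exact pow_le_pow_left₀ (norm_nonneg _) (norm_inner_le_norm _ _) 2

/-- the norm of a positive operator is at most its trace -/
theorem norm_le_trace {e : ι → H} (he : IsNumberBasis e) {T : H →L[ℂ] H} (hT : T.IsPositive)
    {τ : ℝ} (h : HasSum (fun k => (⟪e k, T (e k)⟫_ℂ).re) τ) : ‖T‖ ≤ τ := by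
  have hτ : 0 ≤ τ := h.nonneg fun k => hT.re_inner_nonneg_right (e k)
  apply ContinuousLinearMap.opNorm_le_bound _ hτ
  intro x
  have h1 := hasSum_inner_sq he (T x)
  have h2 : ‖T x‖ ^ 2 ≤ τ * (⟪x, T x⟫_ℂ).re := by
    have h3 : HasSum (fun k => (⟪e k, T (e k)⟫_ℂ).re * (⟪x, T x⟫_ℂ).re)
        (τ * (⟪x, T x⟫_ℂ).re) := h.mul_right _
    exact hasSum_le (fun k => cauchy hT (e k) x) h1 h3
  have h4 : (⟪x, T x⟫_ℂ).re ≤ ‖x‖ * ‖T x‖ :=
    (Complex.re_le_norm _).trans (norm_inner_le_norm _ _)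
  have h5 : ‖T x‖ ^ 2 ≤ τ * (‖x‖ * ‖T x‖) := h2.trans (mul_le_mul_of_nonneg_left h4 hτ)
  rcases (norm_nonneg (T x)).eq_or_lt with h6 | h6
  · rw [← h6]; positivity
  · have h7 : ‖T x‖ * ‖T x‖ ≤ (τ * ‖x‖) * ‖T x‖ := by linarith
    exact le_of_mul_le_mul_right h7 h6

/-- `-ρ log ρ` is positive for positive `ρ` of trace at most one -/
theorem negMulLogOp_isPositive {e : ι → H} (he : IsNumberBasis e) {T : H →L[ℂ] H}
    (hT : T.IsPositive) {τ : ℝ} (hτ : τ ≤ 1) (h : HasSum (fun k => (⟪e k, T (e k)⟫_ℂ).re) τ) :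
    (negMulLogOp T).IsPositive := by
  rw [← ContinuousLinearMap.nonneg_iff_isPositive]
  unfold negMulLogOp
  apply cfc_nonneg
  intro x hx
  have h0 : 0 ≤ T := (ContinuousLinearMap.nonneg_iff_isPositive T).mpr hT
  have h1 : 0 ≤ x := spectrum_nonneg_of_nonneg h0 hx
  have h2 : ‖x‖ ≤ ‖T‖ := by
    rcases subsingleton_or_nontrivial H with hs | hs
    · exfalso
      have : T = 0 := Subsingleton.elim _ _
      rw [this] at hx
      haveI : Subsingleton (H →L[ℂ] H) := by infer_instance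
      rw [spectrum.of_subsingleton] at hx
      exact hx
    · exact spectrum.norm_le_norm_of_mem hx
  have h3 : x ≤ 1 := (Real.le_norm_self x).trans (h2.trans ((norm_le_trace he hT h).trans hτ))
  exact Real.negMulLog_nonneg h1 h3

end norm

end

end Vale.Agent.P369Y.Ptr

namespace Vale.Agent.P369Y

open scoped InnerProductSpace
open Vale.Agent.P369 Vale.Agent.P369.Sys

noncomputable section

variable {n : ℕ} {H K : Type} [NormedAddCommGroup H] [InnerProductSpace ℂ H] [CompleteSpace H]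
  [NormedAddCommGroup K] [InnerProductSpace ℂ K] [CompleteSpace K]

/-- the partial trace over the second group of modes does not depend on the number states -/
theorem ptr_all {e : Conf n → H} {f : Conf n → Conf n → K} {t : H → H → K}
    (he : IsNumberBasis e) (hf : IsNumberBasis fun x : Conf n × Conf n => f x.1 x.2)
    (ht : IsTens e f t) {T : K →L[ℂ] K} (hT : T.IsPositive) {ρC : H →L[ℂ] H}
    {e₁ e₂ g : Conf n → H} (h₁ : IsNumberBasis e₁) (h₂ : IsNumberBasis e₂)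
    (hg : IsNumberBasis g)
    (h : ∀ m m', HasSum (fun l => ⟪t (e₁ m) (e₂ l), T (t (e₁ m') (e₂ l))⟫_ℂ)
      ⟪e₁ m, ρC (e₁ m')⟫_ℂ) (φ φ' : H) :
    HasSum (fun l => ⟪t φ (g l), T (t φ' (g l))⟫_ℂ) ⟪φ, ρC φ'⟫_ℂ :=
  Ptr.ptr_indep (fun a b c d => ht.inner_tens he hf a b c d) hT h₁ h₂ hg h φ φ'

/-- states do not depend on the number basis -/
theorem isState_iff {e e' : Conf n → H} (he : IsNumberBasis e) (he' : IsNumberBasis e')
    (ρ : H →L[ℂ] H) : IsState e ρ ↔ IsState e' ρ :=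
  ⟨fun h => ⟨h.1, Ptr.trace_indep he he' h.1 h.2⟩, fun h => ⟨h.1, Ptr.trace_indep he' he h.1 h.2⟩⟩

theorem negMulLogOp_isPositive {e : Conf n → H} (he : IsNumberBasis e) {ρ : H →L[ℂ] H}
    (hρ : IsState e ρ) : (negMulLogOp ρ).IsPositive :=
  Ptr.negMulLogOp_isPositive he hρ.1 le_rfl (Complex.hasSum_re hρ.2)

/-- the entropy does not depend on the number basis -/
theorem entropy_eq {e e' : Conf n → H} (he : IsNumberBasis e) (he' : IsNumberBasis e')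
    {ρ : H →L[ℂ] H} (hρ : IsState e ρ) : entropy e ρ = entropy e' ρ :=
  Ptr.tsum_re_eq he he' (negMulLogOp_isPositive he hρ)

/-- the entropy photon number does not depend on the number basis -/
theorem photonNumber_eq {e e' : Conf n → H} (he : IsNumberBasis e) (he' : IsNumberBasis e')
    {ρ : H →L[ℂ] H} (hρ : IsState e ρ) : photonNumber e ρ = photonNumber e' ρ := by
  unfold photonNumber
  rw [entropy_eq he he' hρ]

end

end Vale.Agent.P369Y
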