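import Vale.Agent.P369.H400G.Tens
import Vale.Agent.P369.H400G.Ptr

/-!
P369 (helper326): conjugating the inputs and the output of a beam splitter by unitaries.
-/

set_option linter.all false

namespace Vale.Agent.P369Y

open scoped InnerProductSpace
open Vale.Agent.P369 (Conf cj cj_apply cj_inner)
open Vale.Agent.P369.Sys

noncomputable section

variable {n : ℕ} {H K : Type} [NormedAddCommGroup H] [InnerProductSpace ℂ H] [CompleteSpace H]
  [NormedAddCommGroup K] [InnerProductSpace ℂ K] [CompleteSpace K]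
  {e : Conf n → H} {f : Conf n → Conf n → K} {t : H → H → K} {η : ℝ}

theorem inner_symm_right_aux (W : K ≃ₗᵢ[ℂ] K) (x y : K) :
    ⟪x, W.symm y⟫_ℂ = ⟪W x, y⟫_ℂ := by
  rw [← W.inner_map_map, W.apply_symm_apply]

theorem isNumberBasis_map {ι : Type} {b : ι → H} (hb : IsNumberBasis b) (V : H ≃ₗᵢ[ℂ] H) :
    IsNumberBasis fun i => V (b i) := by
  refine isNumberBasis_of_orth (hb.1.comp_linearIsometryEquiv V) fun v hv => ?_
  have h : V.symm v = 0 := by
    apply ext_nb hb
    intro i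
    rw [inner_zero_right, ← V.inner_map_map, V.apply_symm_apply]
    exact hv i
  rw [← V.apply_symm_apply v, h, map_zero]

/-- the output for conjugated inputs -/
theorem output_conj (he : IsNumberBasis e)
    (hf : IsNumberBasis fun x : Conf n × Conf n => f x.1 x.2) (ht : IsTens e f t)
    {VA VB VC VD : H ≃ₗᵢ[ℂ] H} {T₁ T₂ : K ≃ₗᵢ[ℂ] K}
    (h1 : ∀ φ χ, T₁ (t φ χ) = t (VA φ) (VB χ)) (h2 : ∀ φ χ, T₂ (t φ χ) = t (VC φ) (VD χ))
    {U U' : K ≃ₗᵢ[ℂ] K} (hU' : IsBeamSplitter η f U') {c : ℂ} (hc : ‖c‖ = 1)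
    (hcov : ∀ x, U (T₁ x) = c • T₂ (U' x)) {ρA ρB ρC : H →L[ℂ] H} {ρAB : K →L[ℂ] K}
    (hpos : ρAB.IsPositive) (hP : IsProduct e f ρA ρB ρAB)
    (hM : ∀ m m' : Conf n,
      HasSum (fun l => ⟪f m l, U (ρAB (U.symm (f m' l)))⟫_ℂ) ⟪e m, ρC (e m')⟫_ℂ) :
    IsOutput η e f (cj VA.symm ρA) (cj VB.symm ρB) (cj VC.symm ρC) := by
  have hc0 : c ≠ 0 := by
    intro h
    rw [h, norm_zero] at hc
    exact zero_ne_one hc
  have hcc : c * (starRingEnd ℂ) c = 1 := by
    rw [Complex.mul_conj, Complex.normSq_eq_norm_sq, hc]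
    simp
  have htb : ∀ k l, t (e k) (e l) = f k l := ht.basis he hf
  -- product form of the joint input
  have hprod : ∀ φ χ, ρAB (t φ χ) = t (ρA φ) (ρB χ) :=
    ht.product he hf he he (fun k l k' l' => by rw [htb, htb]; exact hP k l k' l')
  -- the conjugated relations
  have c1 : ∀ y, U' (T₁.symm y) = c⁻¹ • T₂.symm (U y) := by
    intro y
    have h := hcov (T₁.symm y)
    rw [T₁.apply_symm_apply] at h
    rw [h, map_smul, T₂.symm_apply_apply, smul_smul, inv_mul_cancel₀ hc0, one_smul]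
  have c2 : ∀ x, T₁ (U'.symm x) = c • U.symm (T₂ x) := by
    intro x
    have h := hcov (U'.symm x)
    rw [U'.apply_symm_apply] at h
    rw [← map_smul, ← h, U.symm_apply_apply]
  -- the transformed output
  have hXpos : (cj U ρAB).IsPositive := P369.cj_isPositive U hpos
  have hX := ptr_all he hf ht hXpos he he (isNumberBasis_map he VD) (ρC := ρC) (fun m m' => by
    refine (hM m m').congr_fun fun l => ?_
    rw [htb, htb, cj_apply])
  refine ⟨U', cj T₁.symm ρAB, hU', ?_, ?_⟩
  · intro k l k' l'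
    rw [← htb, ← htb, cj_apply, LinearIsometryEquiv.symm_symm, h1, hprod,
      inner_symm_right_aux T₁, h1, ht.inner_tens he hf, cj_apply, cj_apply,
      LinearIsometryEquiv.symm_symm, LinearIsometryEquiv.symm_symm]
    rw [← VA.inner_map_map (e k), ← VB.inner_map_map (e l), VA.apply_symm_apply,
      VB.apply_symm_apply]
  · intro m m'
    have h3 := hX (VC (e m)) (VC (e m'))
    have e3 : ⟪e m, cj VC.symm ρC (e m')⟫_ℂ = ⟪VC (e m), ρC (VC (e m'))⟫_ℂ := by
      rw [cj_apply, LinearIsometryEquiv.symm_symm, ← VC.inner_map_map (e m),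
        VC.apply_symm_apply]
    rw [e3]
    refine h3.congr_fun fun l => ?_
    rw [cj_apply, cj_apply, LinearIsometryEquiv.symm_symm, c1, c2, map_smul, map_smul,
      map_smul, smul_smul, inv_mul_cancel₀ hc0, one_smul, ← h2, ← h2, htb, htb,
      ← T₂.inner_map_map (f m l), T₂.apply_symm_apply]

end

end Vale.Agent.P369Y
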