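import Vale.Agent.P369.H400G.Modes2

set_option linter.all false

/-!
P369 (helper400): covariance of the beam splitter under equal mode changes of both inputs.
-/

namespace Vale.Agent.P369Y

open scoped InnerProductSpace Matrix
open Matrix
open Vale.Agent.P369 (Conf up down)
open Vale.Agent.P369.Sys

noncomputable section

variable {n : ℕ} {H K : Type} [NormedAddCommGroup H] [InnerProductSpace ℂ H] [CompleteSpace H]
  [NormedAddCommGroup K] [InnerProductSpace ℂ K] [CompleteSpace K]

/-- annihilation and creation operators on the joint number states -/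
def opK (f : Conf n → Conf n → K) (s τ : Bool) (m : Fin n) (x : Conf n × Conf n) : K :=
  if s then (if τ then annA f m x.1 x.2 else creA f m x.1 x.2)
  else (if τ then annB f m x.1 x.2 else creB f m x.1 x.2)

/-- `φ` is the operator `(s, τ, m)` applied to `ψ` (weakly) -/
def WW (f : Conf n → Conf n → K) (s τ : Bool) (m : Fin n) (ψ φ : K) : Prop :=
  ∀ x : Conf n × Conf n, ⟪opK f s (!τ) m x, ψ⟫_ℂ = ⟪f x.1 x.2, φ⟫_ℂ

/-- one photon more -/
def us (s : Bool) (m : Fin n) (x : Conf n × Conf n) : Conf n × Conf n :=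
  if s then (up x.1 m, x.2) else (x.1, up x.2 m)

/-- its coefficient -/
def cs (s : Bool) (m : Fin n) (x : Conf n × Conf n) : ℝ :=
  if s then Real.sqrt ((x.1 m : ℝ) + 1) else Real.sqrt ((x.2 m : ℝ) + 1)

theorem us_inj (s : Bool) (m : Fin n) : Function.Injective (us (n := n) s m) := by
  rintro ⟨a, b⟩ ⟨a', b'⟩ h
  unfold us at h
  cases s
  · simp only [Bool.false_eq_true, if_false, Prod.mk.injEq] at h
    exact Prod.ext h.1 (up_inj m h.2)
  · simp only [if_true, Prod.mk.injEq] at h
    exact Prod.ext (up_inj m h.1) h.2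

theorem opK_cre (f : Conf n → Conf n → K) (s : Bool) (m : Fin n) (x : Conf n × Conf n) :
    opK f s false m x = (cs s m x : ℂ) • f (us s m x).1 (us s m x).2 := by
  cases s <;> rfl

theorem opK_ann (f : Conf n → Conf n → K) (s : Bool) (m : Fin n) (x : Conf n × Conf n) :
    opK f s true m (us s m x) = (cs s m x : ℂ) • f x.1 x.2 := by
  cases s
  · show annB f m x.1 (up x.2 m) = _
    unfold annB cs
    rw [down_up, up_at]
    simp
  · show annA f m (up x.1 m) x.2 = _
    unfold annA cs
    rw [down_up, up_at]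
    simp

theorem opK_ann_zero (f : Conf n → Conf n → K) (s : Bool) (m : Fin n) (y : Conf n × Conf n)
    (hy : y ∉ Set.range (us s m)) : opK f s true m y = 0 := by
  cases s
  · show annB f m y.1 y.2 = 0
    have h : y.2 m = 0 := by
      by_contra h
      exact hy ⟨(y.1, down y.2 m), by
        unfold us
        simp only [Bool.false_eq_true, if_false]
        rw [up_down' h]⟩
    unfold annB
    rw [h]
    simp
  · show annA f m y.1 y.2 = 0
    have h : y.1 m = 0 := by
      by_contra h
      exact hy ⟨(down y.1 m, y.2), by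
        unfold us
        simp only [if_true]
        rw [up_down' h]⟩
    unfold annA
    rw [h]
    simp

section base

variable {f : Conf n → Conf n → K} (hf : IsNumberBasis fun x : Conf n × Conf n => f x.1 x.2)

include hf

theorem WW_adj {s : Bool} {m : Fin n} {ψ φ ψ' φ' : K} (h1 : WW f s true m ψ φ)
    (h2 : WW f s false m ψ' φ') : ⟪φ', ψ⟫_ℂ = ⟪ψ', φ⟫_ℂ :=
  adj_gen hf (us_inj s m) (opK_cre f s m) (opK_ann f s m) (opK_ann_zero f s m) h1 h2

theorem opK_adj (s : Bool) (m : Fin n) (x y : Conf n × Conf n) :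
    ⟪opK f s false m x, f y.1 y.2⟫_ℂ = ⟪f x.1 x.2, opK f s true m y⟫_ℂ := by
  have ho := orthonormal_iff_ite.1 hf.1
  by_cases hy : y ∈ Set.range (us s m)
  · obtain ⟨z, rfl⟩ := hy
    rw [opK_cre, opK_ann, inner_smul_left, inner_smul_right, Complex.conj_ofReal]
    have h1 := ho (us s m x) (us s m z)
    have h2 := ho x z
    rw [h1, h2]
    by_cases hxz : x = z
    · subst hxz; simp
    · rw [if_neg hxz, if_neg (fun h => hxz (us_inj s m h))]
      simp
  · rw [opK_ann_zero f s m y hy, inner_zero_right, opK_cre, inner_smul_left]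
    have h1 := ho (us s m x) y
    rw [h1, if_neg, mul_zero]
    intro h
    exact hy ⟨x, h⟩

theorem opK_adj' (s : Bool) (m : Fin n) (x y : Conf n × Conf n) :
    ⟪opK f s true m x, f y.1 y.2⟫_ℂ = ⟪f x.1 x.2, opK f s false m y⟫_ℂ := by
  rw [← inner_conj_symm, ← opK_adj hf, inner_conj_symm]

end base

/-- beam splitter coefficients -/
def Mb (η : ℝ) (s s' : Bool) : ℂ :=
  if s then (if s' then (Real.sqrt η : ℂ) else (Real.sqrt (1 - η) : ℂ))
  else (if s' then -(Real.sqrt (1 - η) : ℂ) else (Real.sqrt η : ℂ))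

theorem conj_Mb (η : ℝ) (s s' : Bool) : (starRingEnd ℂ) (Mb η s s') = Mb η s s' := by
  cases s <;> cases s' <;> simp [Mb]

/-- `√η a + √(1-η) b` or `-√(1-η) a + √η b`, and adjoints, on number states -/
def comb (η : ℝ) (g : Conf n → Conf n → K) (s τ : Bool) (m : Fin n) (x : Conf n × Conf n) : K :=
  Mb η s true • opK g true τ m x + Mb η s false • opK g false τ m x

theorem bs_rel {η : ℝ} {f : Conf n → Conf n → K} {U : K ≃ₗᵢ[ℂ] K} (hU : IsBeamSplitter η f U)
    (s : Bool) (m : Fin n) (x y : Conf n × Conf n) :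
    ⟪opK f s false m x, U (f y.1 y.2)⟫_ℂ = ⟪f x.1 x.2, U (comb η f s true m y)⟫_ℂ := by
  cases s
  · exact (hU.2 m y.1 y.2 x.1 x.2).2
  · exact (hU.2 m y.1 y.2 x.1 x.2).1

theorem bs_of_rel {η : ℝ} {f : Conf n → Conf n → K} {U : K ≃ₗᵢ[ℂ] K} (h0 : U (f 0 0) = f 0 0)
    (h : ∀ s m (x y : Conf n × Conf n), ⟪opK f s false m x, U (f y.1 y.2)⟫_ℂ =
      ⟪f x.1 x.2, U (comb η f s true m y)⟫_ℂ) : IsBeamSplitter η f U :=
  ⟨h0, fun j k l k' l' => ⟨h true j (k', l') (k, l), h false j (k', l') (k, l)⟩⟩

/-- the inverse beam splitter maps number states to finite combinations of number states -/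
theorem symm_mem {η : ℝ} {f : Conf n → Conf n → K}
    (hf : IsNumberBasis fun x : Conf n × Conf n => f x.1 x.2) {U : K ≃ₗᵢ[ℂ] K}
    (hU : IsBeamSplitter η f U) (x : Conf n × Conf n) :
    U.symm (f x.1 x.2) ∈ Submodule.span ℂ (Set.range fun x : Conf n × Conf n => f x.1 x.2) := by
  obtain ⟨T, hT⟩ := P369.exists_repr hf
  have hT' : ∀ k l, T (f k l) = P369.ket2 k l := fun k l => hT (k, l)
  have h := P369.symm_apply (P369.bs_to hU T hT') x.1 x.2
  have e1 : U.symm (f x.1 x.2) = T.symm ((T.symm.trans (U.trans T)).symm (P369.ket2 x.1 x.2)) := by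
    rw [← hT']
    change U.symm (f x.1 x.2) = T.symm (T (U.symm (T.symm (T (f x.1 x.2)))))
    rw [T.symm_apply_apply, T.symm_apply_apply]
  rw [e1, h]
  unfold P369.levelVec
  rw [map_sum]
  refine Submodule.sum_mem _ fun m _ => ?_
  rw [map_smul, ← hT', T.symm_apply_apply]
  exact Submodule.smul_mem _ _ (Submodule.subset_span ⟨(m, x.1 + x.2 - m), rfl⟩)

section transfer

variable {η : ℝ} {f : Conf n → Conf n → K}
  (hf : IsNumberBasis fun x : Conf n × Conf n => f x.1 x.2) {U : K ≃ₗᵢ[ℂ] K}
  (hU : IsBeamSplitter η f U)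

include hf hU

theorem symm_cre {x : Conf n × Conf n} {c : Conf n × Conf n →₀ ℂ}
    (hc : (c.sum fun z a => a • f z.1 z.2) = U.symm (f x.1 x.2)) (s : Bool) (m : Fin n) :
    U.symm (opK f s false m x) = c.sum fun z a => a • comb η f s false m z := by
  apply fext hf
  intro y1 y2
  have h1 := bs_rel hU s m x (y1, y2)
  have h2 : ⟪f y1 y2, U.symm (opK f s false m x)⟫_ℂ =
      (starRingEnd ℂ) ⟪opK f s false m x, U (f y1 y2)⟫_ℂ := by
    rw [inner_conj_symm, ← U.inner_map_map, U.apply_symm_apply]
  rw [h2, h1, inner_conj_symm]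
  have h3 : ⟪U (comb η f s true m (y1, y2)), f x.1 x.2⟫_ℂ =
      ⟪comb η f s true m (y1, y2), U.symm (f x.1 x.2)⟫_ℂ := by
    rw [← U.inner_map_map _ (U.symm _), U.apply_symm_apply]
  rw [h3, ← hc, Finsupp.sum, Finsupp.sum, inner_sum, inner_sum]
  refine Finset.sum_congr rfl fun z _ => ?_
  rw [inner_smul_right, inner_smul_right]
  congr 1
  unfold comb
  rw [inner_add_left, inner_add_right, inner_smul_left, inner_smul_left, inner_smul_right,
    inner_smul_right, conj_Mb, conj_Mb, opK_adj' hf, opK_adj' hf]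

theorem symm_ann {x : Conf n × Conf n} {c : Conf n × Conf n →₀ ℂ}
    (hc : (c.sum fun z a => a • f z.1 z.2) = U.symm (f x.1 x.2)) (s : Bool) (m : Fin n) :
    U.symm (opK f s true m x) = c.sum fun z a => a • comb η f s true m z := by
  apply U.injective
  rw [U.apply_symm_apply]
  apply fext hf
  intro y1 y2
  rw [← opK_adj hf s m (y1, y2) x, Finsupp.sum, map_sum, inner_sum]
  have h1 : f x.1 x.2 = U (c.sum fun z a => a • f z.1 z.2) := by
    rw [hc, U.apply_symm_apply]
  rw [h1, Finsupp.sum, map_sum, inner_sum]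
  refine Finset.sum_congr rfl fun z _ => ?_
  rw [map_smul, map_smul, inner_smul_right, inner_smul_right]
  congr 1
  exact bs_rel hU s m (y1, y2) z

/-- the beam splitter relations on the whole domain -/
theorem WW_bs {τ : Bool} {m : Fin n} {ψ : K} {φ : Bool → K} (h : ∀ s', WW f s' τ m ψ (φ s'))
    (s : Bool) : WW f s τ m (U ψ) (U (Mb η s true • φ true + Mb η s false • φ false)) := by
  intro x
  have hmem := symm_mem hf hU x
  rw [Finsupp.mem_span_range_iff_exists_finsupp] at hmem
  obtain ⟨c, hc⟩ := hmem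
  have e1 : ⟪opK f s (!τ) m x, U ψ⟫_ℂ = ⟪U.symm (opK f s (!τ) m x), ψ⟫_ℂ := by
    rw [← U.inner_map_map (U.symm _), U.apply_symm_apply]
  have e2 : ⟪f x.1 x.2, U (Mb η s true • φ true + Mb η s false • φ false)⟫_ℂ =
      ⟪U.symm (f x.1 x.2), Mb η s true • φ true + Mb η s false • φ false⟫_ℂ := by
    rw [← U.inner_map_map (U.symm _), U.apply_symm_apply]
  have e3 : U.symm (opK f s (!τ) m x) = c.sum fun z a => a • comb η f s (!τ) m z := by
    cases τ
    · exact symm_ann hf hU hc s m
    · exact symm_cre hf hU hc s m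
  rw [e1, e2, e3, ← hc, Finsupp.sum, Finsupp.sum, sum_inner, sum_inner]
  refine Finset.sum_congr rfl fun z _ => ?_
  rw [inner_smul_left, inner_smul_left]
  congr 1
  unfold comb
  rw [inner_add_left, inner_add_right, inner_smul_left, inner_smul_left, inner_smul_right,
    inner_smul_right, conj_Mb, conj_Mb, h true z, h false z]

end transfer

/-- `g` are number states of the modes `α a + β a† + γ`, `F` the old modes on them -/
structure IsMK (f : Conf n → Conf n → K) (α β : Matrix (Fin n) (Fin n) ℂ) (γ : Bool → Fin n → ℂ)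
    (g : Conf n → Conf n → K) (F : Bool → Bool → Fin n → Conf n × Conf n → K) : Prop where
  w : ∀ s τ m (x : Conf n × Conf n), WW f s τ m (g x.1 x.2) (F s τ m x)
  a : ∀ s j x, opK g s true j x =
    ∑ m, (α j m • F s true m x + β j m • F s false m x) + γ s j • g x.1 x.2
  c : ∀ s j x, opK g s false j x =
    ∑ m, (star (α j m) • F s false m x + star (β j m) • F s true m x) + star (γ s j) • g x.1 x.2

/-- covariance of the beam splitter -/
theorem cov {η : ℝ} {f : Conf n → Conf n → K}
    (hf : IsNumberBasis fun x : Conf n × Conf n => f x.1 x.2) {U : K ≃ₗᵢ[ℂ] K}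
    (hU : IsBeamSplitter η f U) {α β : Matrix (Fin n) (Fin n) ℂ} {γ γ' : Bool → Fin n → ℂ}
    {g g' : Conf n → Conf n → K} {F F' : Bool → Bool → Fin n → Conf n × Conf n → K}
    (h : IsMK f α β γ g F) (h' : IsMK f α β γ' g' F')
    (hγ : ∀ s j, γ' s j = Mb η s true * γ true j + Mb η s false * γ false j)
    (s : Bool) (j : Fin n) (x y : Conf n × Conf n) :
    ⟪opK g' s false j x, U (g y.1 y.2)⟫_ℂ = ⟪g' x.1 x.2, U (comb η g s true j y)⟫_ℂ := by
  have k1 : ∀ m, ⟪F' s false m x, U (g y.1 y.2)⟫_ℂ =
      ⟪g' x.1 x.2, U (Mb η s true • F true true m y + Mb η s false • F false true m y)⟫_ℂ :=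
    fun m => WW_adj hf (WW_bs hf hU (fun s' => h.w s' true m y) s) (h'.w s false m x)
  have k2 : ∀ m, ⟪F' s true m x, U (g y.1 y.2)⟫_ℂ =
      ⟪g' x.1 x.2, U (Mb η s true • F true false m y + Mb η s false • F false false m y)⟫_ℂ := by
    intro m
    have := WW_adj hf (h'.w s true m x) (WW_bs hf hU (fun s' => h.w s' false m y) s)
    have h2 := congrArg (starRingEnd ℂ) this
    rw [inner_conj_symm, inner_conj_symm] at h2
    exact h2.symm
  have e1 : comb η g s true j y =
      ∑ m, (α j m • (Mb η s true • F true true m y + Mb η s false • F false true m y) +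
        β j m • (Mb η s true • F true false m y + Mb η s false • F false false m y)) +
      γ' s j • g y.1 y.2 := by
    unfold comb
    rw [h.a, h.a, hγ, smul_add, smul_add, Finset.smul_sum, Finset.smul_sum, add_smul, smul_smul,
      smul_smul, add_add_add_comm, ← Finset.sum_add_distrib]
    congr 1
    refine Finset.sum_congr rfl fun m _ => ?_
    simp only [smul_add, smul_smul]
    rw [mul_comm (Mb η s true) (α j m), mul_comm (Mb η s true) (β j m),
      mul_comm (Mb η s false) (α j m), mul_comm (Mb η s false) (β j m)]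
    abel
  rw [h'.c, e1, inner_add_left, sum_inner, map_add, map_sum, inner_add_right, inner_sum, map_smul,
    inner_smul_left, inner_smul_right]
  congr 1
  · refine Finset.sum_congr rfl fun m _ => ?_
    have k3 : ∀ (a b : ℂ) (v w : K), U (a • v + b • w) = a • U v + b • U w := fun a b v w => by
      rw [map_add, map_smul, map_smul]
    rw [inner_add_left, inner_smul_left, inner_smul_left, k1, k2, k3 (α j m) (β j m),
      inner_add_right, inner_smul_right, inner_smul_right]
    simp only [RCLike.star_def, Complex.conj_conj]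
  · simp only [RCLike.star_def, Complex.conj_conj]

end

end Vale.Agent.P369Y
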