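import Vale.Agent.P369.Bd3.B2

/-!
Gaussian states of `n` modes, for the entropy photon-number inequality.
-/

namespace Vale.Agent.P369.Sys

open scoped InnerProductSpace Matrix

noncomputable section

variable {n : ℕ} {H : Type} [NormedAddCommGroup H] [InnerProductSpace ℂ H]

/-- `a_j |k⟩`. -/
def ann (e : Conf n → H) (j : Fin n) (k : Conf n) : H :=
  (Real.sqrt (k j) : ℂ) • e (down k j)

/-- `a_j† |k⟩`. -/
def cre (e : Conf n → H) (j : Fin n) (k : Conf n) : H :=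
  (Real.sqrt (k j + 1) : ℂ) • e (up k j)

/-- `e'` are the number states of the modes `a'_i = Σ_m (α_im a_m + β_im a_m†) + γ_i`, where the
`a_m` are the modes of the number states `e`: the Bogoliubov relations `αα† - ββ† = 1` and
`αβᵀ = βαᵀ` hold, `e'` is an orthonormal basis, and `a'_i`, `a'_i†` act on `e'` as annihilation
and creation operators (all matrix elements between the `e x` and the `e' k`). -/
def IsModeChange (α β : Matrix (Fin n) (Fin n) ℂ) (γ : Fin n → ℂ) (e e' : Conf n → H) : Prop :=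
  α * αᴴ - β * βᴴ = 1 ∧ α * βᵀ = β * αᵀ ∧ IsNumberBasis e' ∧
  ∀ (i : Fin n) (x k : Conf n),
    ⟪e x, ann e' i k⟫_ℂ =
      ∑ m, (α i m * ⟪cre e m x, e' k⟫_ℂ + β i m * ⟪ann e m x, e' k⟫_ℂ) + γ i * ⟪e x, e' k⟫_ℂ ∧
    ⟪e x, cre e' i k⟫_ℂ =
      ∑ m, (star (α i m) * ⟪ann e m x, e' k⟫_ℂ + star (β i m) * ⟪cre e m x, e' k⟫_ℂ) +
        star (γ i) * ⟪e x, e' k⟫_ℂ

/-- `ρ` is a Gaussian state: a product of thermal states of some normal modes
`a'_i = Σ_m (α_im a_m + β_im a_m†) + γ_i` (Williamson's normal form). -/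
def IsGaussian (e : Conf n → H) (ρ : H →L[ℂ] H) : Prop :=
  ∃ (α β : Matrix (Fin n) (Fin n) ℂ) (γ : Fin n → ℂ) (e' : Conf n → H) (s : Fin n → ℝ),
    IsModeChange α β γ e e' ∧ (∀ j, 0 ≤ s j) ∧
    ∀ k, ρ (e' k) = ((∏ j, s j ^ k j / (s j + 1) ^ (k j + 1) : ℝ) : ℂ) • e' k

end

end Vale.Agent.P369.Sys
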