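import Vale.Agent.P369.H400G.Defs
import Vale.Agent.P369.H326.Disp1

/-!
P369 (helper326): displacement operators on the abstract Fock space, [G-DISP].
-/

set_option linter.all false

namespace Vale.Agent.P369Y

open scoped InnerProductSpace
open Vale.Agent.P369 (Conf up down exists_repr)
open Vale.Agent.P369.Sys
open Vale.Agent.P369N (dsp dsp_succ dsp_up dsp_col dsp_row)

noncomputable section

/-- product of sums over the modes -/
theorem hasSum_pi_prodC {n : ℕ} {F : Fin n → ℕ → ℂ} {a : Fin n → ℂ} (h : ∀ j, HasSum (F j) (a j)) :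
    HasSum (fun b : Fin n → ℕ => ∏ j, F j (b j)) (∏ j, a j) := by
  induction n with
  | zero =>
    simp only [Finset.univ_eq_empty, Finset.prod_empty]
    exact hasSum_unique (fun _ : Fin 0 → ℕ => (1 : ℂ))
  | succ n ih =>
    have h1 := h 0
    have h2 := ih (F := fun j => F j.succ) (a := fun j => a j.succ) (fun j => h j.succ)
    have h3 : Summable fun x : ℕ × (Fin n → ℕ) => F 0 x.1 * ∏ j, F (Fin.succ j) (x.2 j) := by
      have h1n : Summable fun x : ℕ => ‖F 0 x‖ := h1.summable.norm
      have h2n : Summable fun x : Fin n → ℕ => ‖∏ j, F (Fin.succ j) (x j)‖ := h2.summable.norm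
      exact summable_mul_of_summable_norm (f := fun x => F 0 x)
        (g := fun x : Fin n → ℕ => ∏ j, F (Fin.succ j) (x j)) h1n h2n
    have h4 := h1.mul h2 h3
    have h5 : HasSum ((fun b : Fin (n + 1) → ℕ => ∏ j, F j (b j)) ∘
        (Fin.consEquiv fun _ => ℕ)) (∏ j, a j) := by
      rw [Fin.prod_univ_succ]
      refine h4.congr_fun fun x => ?_
      change ∏ j, F j ((Fin.cons x.1 x.2 : Fin (n + 1) → ℕ) j) = _
      rw [Fin.prod_univ_succ]
      simp
    exact (Equiv.hasSum_iff (Fin.consEquiv fun _ => ℕ)).mp h5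

variable {H : Type} [NormedAddCommGroup H] [InnerProductSpace ℂ H] [CompleteSpace H]

/-- a number basis from a matrix with orthonormal columns and normalised rows -/
theorem exists_basis_of_matrix {ι : Type} [DecidableEq ι] {e : ι → H} (he : IsNumberBasis e)
    {v : ι → ι → ℂ}
    (hcol : ∀ k k', HasSum (fun m => (starRingEnd ℂ) (v k m) * v k' m) (if k = k' then 1 else 0))
    (hrow : ∀ m, HasSum (fun k => v k m * (starRingEnd ℂ) (v k m)) 1) :
    ∃ d : ι → H, IsNumberBasis d ∧ ∀ k m, ⟪e m, d k⟫_ℂ = v k m := by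
  obtain ⟨T, hT⟩ := exists_repr he
  have hmem : ∀ k, Memℓp (v k) 2 := by
    intro k
    apply memℓp_gen
    have h1 := (hcol k k).summable.norm
    refine h1.congr fun m => ?_
    rw [norm_mul, RCLike.norm_conj]
    simp [sq]
  set w : ι → lp (fun _ : ι => ℂ) 2 := fun k => ⟨v k, hmem k⟩ with hw
  have hwk : ∀ k m, (w k) m = v k m := fun k m => rfl
  set d : ι → H := fun k => T.symm (w k) with hd
  have hin : ∀ k m, ⟪e m, d k⟫_ℂ = v k m := by
    intro k m
    rw [← T.inner_map_map, hT, hd]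
    simp only [T.apply_symm_apply]
    rw [lp.inner_single_left, hwk]
    simp
  have horth : Orthonormal ℂ d := by
    rw [orthonormal_iff_ite]
    intro k k'
    rw [hd]
    simp only [T.symm.inner_map_map]
    rw [lp.inner_eq_tsum]
    have h1 := (hcol k k').tsum_eq
    rw [← h1]
    refine tsum_congr fun m => ?_
    rw [hwk, hwk, RCLike.inner_apply, mul_comm]
  refine ⟨d, ⟨horth, ?_⟩, hin⟩
  rw [Submodule.dense_iff_topologicalClosure_eq_top, Submodule.topologicalClosure_eq_top_iff,
    Submodule.eq_bot_iff]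
  intro y hy
  rw [Submodule.mem_orthogonal] at hy
  have h1 : ∀ k, ⟪d k, y⟫_ℂ = 0 := fun k => hy _ (Submodule.subset_span ⟨k, rfl⟩)
  have h2 : ∀ m, ⟪e m, y⟫_ℂ = 0 := by
    intro m
    have hF : ∀ F : Finset ι, ‖⟪e m, y⟫_ℂ‖ ^ 2 ≤
        (1 - ∑ k ∈ F, ‖v k m‖ ^ 2) * ‖y‖ ^ 2 := by
      intro F
      set p : H := ∑ k ∈ F, ⟪d k, e m⟫_ℂ • d k with hp
      have q1 : ⟪p, y⟫_ℂ = 0 := by
        rw [hp, sum_inner]
        refine Finset.sum_eq_zero fun k _ => ?_
        rw [inner_smul_left, h1, mul_zero]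
      have q2 : ⟪e m, y⟫_ℂ = ⟪e m - p, y⟫_ℂ := by
        rw [inner_sub_left, q1, sub_zero]
      have q3 : ⟪p, p⟫_ℂ = ((∑ k ∈ F, ‖v k m‖ ^ 2 : ℝ) : ℂ) := by
        rw [hp, horth.inner_sum]
        push_cast
        refine Finset.sum_congr rfl fun k _ => ?_
        have e1 : ⟪d k, e m⟫_ℂ = (starRingEnd ℂ) (v k m) := by
          rw [← hin k m, inner_conj_symm]
        rw [e1, Complex.conj_conj, Complex.mul_conj, Complex.normSq_eq_norm_sq]
        push_cast
        rfl
      have q4 : ⟪e m, p⟫_ℂ = ((∑ k ∈ F, ‖v k m‖ ^ 2 : ℝ) : ℂ) := by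
        rw [hp, inner_sum]
        push_cast
        refine Finset.sum_congr rfl fun k _ => ?_
        have e1 : ⟪d k, e m⟫_ℂ = (starRingEnd ℂ) (v k m) := by
          rw [← hin k m, inner_conj_symm]
        rw [inner_smul_right, e1, hin, mul_comm, Complex.mul_conj, Complex.normSq_eq_norm_sq]
        push_cast
        rfl
      have q5 : ‖e m - p‖ ^ 2 = 1 - ∑ k ∈ F, ‖v k m‖ ^ 2 := by
        have r1 := @norm_sub_sq ℂ _ _ _ _ (e m) p
        have r2 : ‖p‖ ^ 2 = ∑ k ∈ F, ‖v k m‖ ^ 2 := by
          have := inner_self_eq_norm_sq (𝕜 := ℂ) p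
          rw [q3] at this
          rw [← this]
          exact Complex.ofReal_re _
        rw [r1, he.1.1 m, r2, q4]
        simp only [RCLike.re_to_complex, Complex.ofReal_re]
        ring
      rw [q2, ← q5, ← mul_pow]
      exact pow_le_pow_left₀ (norm_nonneg _) (norm_inner_le_norm _ _) 2
    have hlim : Filter.Tendsto (fun F : Finset ι => (1 - ∑ k ∈ F, ‖v k m‖ ^ 2) * ‖y‖ ^ 2)
        Filter.atTop (nhds ((1 - 1) * ‖y‖ ^ 2)) := by
      refine Filter.Tendsto.mul_const _ (Filter.Tendsto.const_sub _ ?_)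
      have r1 : HasSum (fun k => ((‖v k m‖ ^ 2 : ℝ) : ℂ)) ((1 : ℝ) : ℂ) := by
        rw [Complex.ofReal_one]
        refine (hrow m).congr_fun fun k => ?_
        rw [Complex.mul_conj, Complex.normSq_eq_norm_sq]
      exact Complex.hasSum_ofReal.1 r1
    rw [sub_self, zero_mul] at hlim
    have r2 := ge_of_tendsto' hlim hF
    have r3 : ‖⟪e m, y⟫_ℂ‖ = 0 := by
      have := sq_nonneg ‖⟪e m, y⟫_ℂ‖
      exact pow_eq_zero_iff (two_ne_zero) |>.1 (le_antisymm r2 this)
    exact norm_eq_zero.1 r3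
  have h3 : (Submodule.span ℂ (Set.range e))ᗮ = ⊥ := by
    rw [← Submodule.topologicalClosure_eq_top_iff, ← Submodule.dense_iff_topologicalClosure_eq_top]
    exact he.2
  have h4 : y ∈ (Submodule.span ℂ (Set.range e))ᗮ := by
    rw [Submodule.mem_orthogonal]
    intro u hu
    induction hu using Submodule.span_induction with
    | mem x hx =>
      obtain ⟨m, rfl⟩ := hx
      exact h2 m
    | zero => simp
    | add x x' _ _ h h' => rw [inner_add_left, h, h', add_zero]
    | smul c x _ h => rw [inner_smul_left, h, mul_zero]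
  rw [h3] at h4
  exact (Submodule.mem_bot ℂ).1 h4

variable {n : ℕ}

theorem prod_ite_conf (k k' : Conf n) :
    ∏ j, (if k j = k' j then (1 : ℂ) else 0) = if k = k' then 1 else 0 := by
  by_cases h : k = k'
  · subst h
    simp
  · rw [if_neg h]
    obtain ⟨j, hj⟩ := Function.ne_iff.1 h
    exact Finset.prod_eq_zero (Finset.mem_univ j) (by rw [if_neg hj])

/-- matrix elements of the n-mode displacement -/
def dspn (z : Fin n → ℂ) (k m : Conf n) : ℂ := ∏ j, dsp (z j) (k j) (m j)

theorem dspn_update (z : Fin n → ℂ) (k m : Conf n) (i : Fin n) (a b : ℕ) :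
    dspn z (Function.update k i b) (Function.update m i a) =
      dsp (z i) b a * ∏ j ∈ Finset.univ.erase i, dsp (z j) (k j) (m j) := by
  unfold dspn
  rw [← Finset.mul_prod_erase Finset.univ _ (Finset.mem_univ i)]
  rw [Function.update_self, Function.update_self]
  congr 1
  refine Finset.prod_congr rfl fun j hj => ?_
  rw [Function.update_of_ne (Finset.ne_of_mem_erase hj), Function.update_of_ne
    (Finset.ne_of_mem_erase hj)]

theorem dspn_eq (z : Fin n → ℂ) (k m : Conf n) (i : Fin n) :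
    dspn z k m = dsp (z i) (k i) (m i) * ∏ j ∈ Finset.univ.erase i, dsp (z j) (k j) (m j) := by
  have h := dspn_update z k m i (m i) (k i)
  rwa [Function.update_eq_self, Function.update_eq_self] at h

theorem dspn_up (z : Fin n → ℂ) (k m : Conf n) (i : Fin n) :
    ((Real.sqrt ((m i : ℝ) + 1) : ℝ) : ℂ) * dspn z k (up m i) =
      ((Real.sqrt (k i) : ℝ) : ℂ) * dspn z (down k i) m + z i * dspn z k m := by
  have h1 := dspn_update z k m i (m i + 1) (k i)
  have h2 := dspn_update z k m i (m i) (k i - 1)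
  rw [Function.update_eq_self] at h1 h2
  unfold up down
  rw [h1, h2, dspn_eq z k m i]
  have h3 := dsp_up (z i) (k i) (m i)
  linear_combination (∏ j ∈ Finset.univ.erase i, dsp (z j) (k j) (m j)) * h3

theorem dspn_succ (z : Fin n → ℂ) (k m : Conf n) (i : Fin n) :
    ((Real.sqrt ((k i : ℝ) + 1) : ℝ) : ℂ) * dspn z (up k i) m =
      ((Real.sqrt (m i) : ℝ) : ℂ) * dspn z k (down m i) - (starRingEnd ℂ) (z i) * dspn z k m := by
  have h1 := dspn_update z k m i (m i) (k i + 1)
  have h2 := dspn_update z k m i (m i - 1) (k i)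
  rw [Function.update_eq_self] at h1 h2
  unfold up down
  rw [h1, h2, dspn_eq z k m i]
  have h3 := dsp_succ (z i) (k i) (m i)
  linear_combination (∏ j ∈ Finset.univ.erase i, dsp (z j) (k j) (m j)) * h3

/-- displaced number states: `d k` are the number states of the modes `a_i + z_i` -/
theorem exists_disp {e : Conf n → H} (he : IsNumberBasis e) (z : Fin n → ℂ) :
    ∃ d : Conf n → H, IsNumberBasis d ∧ ∀ (i : Fin n) (x k : Conf n),
      ⟪e x, ann d i k⟫_ℂ = ⟪cre e i x, d k⟫_ℂ + z i * ⟪e x, d k⟫_ℂ ∧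
      ⟪e x, cre d i k⟫_ℂ = ⟪ann e i x, d k⟫_ℂ + star (z i) * ⟪e x, d k⟫_ℂ := by
  have hcol : ∀ k k' : Conf n, HasSum (fun m => (starRingEnd ℂ) (dspn (-z) k m) * dspn (-z) k' m)
      (if k = k' then 1 else 0) := by
    intro k k'
    have h := hasSum_pi_prodC (F := fun j a => (starRingEnd ℂ) (dsp ((-z) j) (k j) a) *
      dsp ((-z) j) (k' j) a) (fun j => dsp_col ((-z) j) (k j) (k' j))
    rw [prod_ite_conf] at h
    refine h.congr_fun fun m => ?_
    unfold dspn
    rw [map_prod, Finset.prod_mul_distrib]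
  have hrow : ∀ m : Conf n, HasSum (fun k => dspn (-z) k m * (starRingEnd ℂ) (dspn (-z) k m))
      1 := by
    intro m
    have h := hasSum_pi_prodC (F := fun j b => dsp ((-z) j) b (m j) *
      (starRingEnd ℂ) (dsp ((-z) j) b (m j))) (fun j => dsp_row ((-z) j) (m j) (m j))
    rw [prod_ite_conf, if_pos rfl] at h
    refine h.congr_fun fun k => ?_
    unfold dspn
    rw [map_prod, Finset.prod_mul_distrib]
  obtain ⟨d, hd, hin⟩ := exists_basis_of_matrix he hcol hrow
  refine ⟨d, hd, fun i x k => ⟨?_, ?_⟩⟩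
  · unfold ann cre
    rw [inner_smul_right, inner_smul_left, hin, hin, hin, Complex.conj_ofReal]
    have h := dspn_up (-z) k x i
    rw [Pi.neg_apply] at h
    linear_combination -h
  · unfold ann cre
    rw [inner_smul_right, inner_smul_left, hin, hin, hin, Complex.conj_ofReal]
    have h := dspn_succ (-z) k x i
    rw [Pi.neg_apply, map_neg] at h
    rw [h]
    change _ = _ + (starRingEnd ℂ) (z i) * _
    ring

end

end Vale.Agent.P369Y
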