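import Vale.Agent.P369.Setup

/-!
P369 (helper903), [G-DISP]: the matrix elements of the displacement operator of one mode.
-/

set_option linter.all false

namespace Vale.Agent.P369Y

open scoped ComplexConjugate

noncomputable section

/-- `D_{xk}(z) = ⟨x| D |k⟩`, `D |0⟩` the coherent state of amplitude `-z` -/
def dD (z : ℂ) : ℕ → ℕ → ℂ
  | x, 0 => (Real.exp (-(‖z‖ ^ 2) / 2) : ℂ) * (-z) ^ x / (Real.sqrt (x.factorial : ℝ) : ℂ)
  | x, k + 1 => ((Real.sqrt (x : ℝ) : ℂ) * dD z (x - 1) k + conj z * dD z x k) /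
      (Real.sqrt ((k : ℝ) + 1) : ℂ)

theorem sqrt_succ_ne (k : ℕ) : (Real.sqrt ((k : ℝ) + 1) : ℂ) ≠ 0 := by
  have : (0 : ℝ) < Real.sqrt ((k : ℝ) + 1) := Real.sqrt_pos.2 (by positivity)
  exact_mod_cast this.ne'

theorem sqrt_succ_sq (k : ℕ) : (Real.sqrt ((k : ℝ) + 1) : ℂ) * (Real.sqrt ((k : ℝ) + 1) : ℂ) =
    (k : ℂ) + 1 := by
  rw [← Complex.ofReal_mul, Real.mul_self_sqrt (by positivity)]
  push_cast
  ring

theorem sqrt_sq (k : ℕ) : (Real.sqrt (k : ℝ) : ℂ) * (Real.sqrt (k : ℝ) : ℂ) = (k : ℂ) := by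
  rw [← Complex.ofReal_mul, Real.mul_self_sqrt (by positivity)]
  push_cast
  ring

/-- `√(k+1) D_{x,k+1} = √x D_{x-1,k} + z̄ D_{xk}` -/
theorem dD_succ (z : ℂ) (x k : ℕ) : (Real.sqrt ((k : ℝ) + 1) : ℂ) * dD z x (k + 1) =
    (Real.sqrt (x : ℝ) : ℂ) * dD z (x - 1) k + conj z * dD z x k := by
  rw [dD, mul_div_cancel₀ _ (sqrt_succ_ne k)]

/-- `√(x+1) D_{x+1,0} = - z D_{x,0}` -/
theorem dD_zero_succ (z : ℂ) (x : ℕ) : (Real.sqrt ((x : ℝ) + 1) : ℂ) * dD z (x + 1) 0 =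
    -z * dD z x 0 := by
  rw [dD, dD, Nat.factorial_succ]
  have h1 : Real.sqrt (((x + 1) * x.factorial : ℕ) : ℝ) =
      Real.sqrt ((x : ℝ) + 1) * Real.sqrt (x.factorial : ℝ) := by
    rw [← Real.sqrt_mul (by positivity)]
    push_cast
    rfl
  rw [h1]
  have h2 := sqrt_succ_ne x
  have h3 : (Real.sqrt (x.factorial : ℝ) : ℂ) ≠ 0 := by
    have : (0 : ℝ) < Real.sqrt (x.factorial : ℝ) := Real.sqrt_pos.2 (by positivity)
    exact_mod_cast this.ne'
  push_cast
  field_simp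
  ring

/-- `√k D_{x,k-1} = √(x+1) D_{x+1,k} + z D_{xk}` -/
theorem dD_pred (z : ℂ) (k : ℕ) : ∀ x : ℕ, (Real.sqrt (k : ℝ) : ℂ) * dD z x (k - 1) =
    (Real.sqrt ((x : ℝ) + 1) : ℂ) * dD z (x + 1) k + z * dD z x k := by
  induction k with
  | zero =>
    intro x
    rw [dD_zero_succ]
    simp
  | succ k ih =>
    intro x
    have hk := sqrt_succ_ne k
    apply mul_left_cancel₀ hk
    have e1 : (Real.sqrt ((k : ℝ) + 1) : ℂ) * ((Real.sqrt ((k + 1 : ℕ) : ℝ) : ℂ) *
        dD z x (k + 1 - 1)) = ((k : ℂ) + 1) * dD z x k := by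
      rw [Nat.add_sub_cancel, Nat.cast_succ, ← mul_assoc, sqrt_succ_sq]
    have e2 : (Real.sqrt ((k : ℝ) + 1) : ℂ) * ((Real.sqrt ((x : ℝ) + 1) : ℂ) * dD z (x + 1) (k + 1)
        + z * dD z x (k + 1)) = (Real.sqrt ((x : ℝ) + 1) : ℂ) *
          ((Real.sqrt ((k : ℝ) + 1) : ℂ) * dD z (x + 1) (k + 1)) +
        z * ((Real.sqrt ((k : ℝ) + 1) : ℂ) * dD z x (k + 1)) := by ring
    rw [e1, e2, dD_succ, dD_succ, Nat.add_sub_cancel]
    have e3 : (Real.sqrt (((x + 1 : ℕ) : ℝ)) : ℂ) = (Real.sqrt ((x : ℝ) + 1) : ℂ) := by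
      rw [Nat.cast_succ]
    rw [e3]
    have h1 := ih x
    have hx := sqrt_succ_sq x
    -- key: k D x k = x D x k + z̄ √k D x (k-1) + z √x D (x-1) k
    have key : (k : ℂ) * dD z x k = (x : ℂ) * dD z x k +
        conj z * ((Real.sqrt (k : ℝ) : ℂ) * dD z x (k - 1)) +
        z * ((Real.sqrt (x : ℝ) : ℂ) * dD z (x - 1) k) := by
      rcases Nat.eq_zero_or_pos x with hx0 | hx0
      · subst hx0
        rcases Nat.eq_zero_or_pos k with hk0 | hk0
        · subst hk0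
          simp
        · obtain ⟨m, rfl⟩ : ∃ m, k = m + 1 := ⟨k - 1, by omega⟩
          have h2 := dD_succ z 0 m
          simp only [Nat.cast_zero, Real.sqrt_zero, Complex.ofReal_zero, zero_mul, zero_add] at h2
          simp only [Nat.cast_zero, Real.sqrt_zero, Complex.ofReal_zero, zero_mul, zero_add,
            mul_zero, add_zero, Nat.add_sub_cancel]
          have h3 := sqrt_succ_sq m
          push_cast
          push_cast at h3
          calc ((m : ℂ) + 1) * dD z 0 (m + 1)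
              = (Real.sqrt ((m : ℝ) + 1) : ℂ) *
                ((Real.sqrt ((m : ℝ) + 1) : ℂ) * dD z 0 (m + 1)) := by
                rw [← mul_assoc, sqrt_succ_sq]
            _ = _ := by rw [h2]; ring
      · obtain ⟨y, rfl⟩ : ∃ y, x = y + 1 := ⟨x - 1, by omega⟩
        have h4 := ih y
        rw [Nat.add_sub_cancel]
        rcases Nat.eq_zero_or_pos k with hk0 | hk0
        · subst hk0
          simp only [Nat.cast_zero, Real.sqrt_zero, Complex.ofReal_zero, zero_mul] at h4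
          simp only [Nat.cast_zero, Real.sqrt_zero, Complex.ofReal_zero, zero_mul, mul_zero,
            add_zero]
          have h5 := sqrt_succ_sq y
          have e4 : (Real.sqrt (((y + 1 : ℕ) : ℝ)) : ℂ) = (Real.sqrt ((y : ℝ) + 1) : ℂ) := by
            rw [Nat.cast_succ]
          rw [e4]
          have h6 : (((y + 1 : ℕ) : ℂ)) = (Real.sqrt ((y : ℝ) + 1) : ℂ) *
            (Real.sqrt ((y : ℝ) + 1) : ℂ) := by rw [h5]; push_cast; ring
          rw [h6]
          linear_combination (Real.sqrt ((y : ℝ) + 1) : ℂ) * h4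
        · obtain ⟨m, rfl⟩ : ∃ m, k = m + 1 := ⟨k - 1, by omega⟩
          have h2 := dD_succ z (y + 1) m
          simp only [Nat.add_sub_cancel] at h4 h2 ⊢
          have e4 : (Real.sqrt (((y + 1 : ℕ) : ℝ)) : ℂ) = (Real.sqrt ((y : ℝ) + 1) : ℂ) := by
            rw [Nat.cast_succ]
          have e5 : (Real.sqrt (((m + 1 : ℕ) : ℝ)) : ℂ) = (Real.sqrt ((m : ℝ) + 1) : ℂ) := by
            rw [Nat.cast_succ]
          rw [e4] at h2 ⊢
          rw [e5] at h4 ⊢
          have h6 : (((y + 1 : ℕ) : ℂ)) = (Real.sqrt ((y : ℝ) + 1) : ℂ) *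
            (Real.sqrt ((y : ℝ) + 1) : ℂ) := by rw [sqrt_succ_sq]; push_cast; ring
          have h7 : (((m + 1 : ℕ) : ℂ)) = (Real.sqrt ((m : ℝ) + 1) : ℂ) *
            (Real.sqrt ((m : ℝ) + 1) : ℂ) := by rw [sqrt_succ_sq]; push_cast; ring
          rw [h6, h7]
          linear_combination (Real.sqrt ((m : ℝ) + 1) : ℂ) * h2 +
            (Real.sqrt ((y : ℝ) + 1) : ℂ) * h4
    have key2 : ((k : ℂ) + 1) * dD z x k = ((x : ℂ) + 1) * dD z x k +
        conj z * ((Real.sqrt (k : ℝ) : ℂ) * dD z x (k - 1)) +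
        z * ((Real.sqrt (x : ℝ) : ℂ) * dD z (x - 1) k) := by
      linear_combination key
    rw [key2, h1]
    linear_combination (-dD z x k) * hx

/-! ### decay -/

/-- `f x = O(R^x/√x!)` -/
def Rap (f : ℕ → ℂ) : Prop :=
  ∃ C R : ℝ, 0 ≤ C ∧ 0 ≤ R ∧ ∀ x : ℕ, ‖f x‖ ≤ C * R ^ x / Real.sqrt (x.factorial : ℝ)

theorem sqrt_fac_pos (x : ℕ) : (0 : ℝ) < Real.sqrt (x.factorial : ℝ) :=
  Real.sqrt_pos.2 (by positivity)

theorem sqrt_fac_succ (x : ℕ) : Real.sqrt ((x + 1).factorial : ℝ) =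
    Real.sqrt ((x : ℝ) + 1) * Real.sqrt (x.factorial : ℝ) := by
  rw [← Real.sqrt_mul (by positivity), Nat.factorial_succ]
  push_cast
  rfl

theorem Rap.mono_R {C R R' : ℝ} (hC : 0 ≤ C) (hR : 0 ≤ R) (h : R ≤ R') (x : ℕ) :
    C * R ^ x / Real.sqrt (x.factorial : ℝ) ≤ C * R' ^ x / Real.sqrt (x.factorial : ℝ) := by
  have := sqrt_fac_pos x
  gcongr

theorem Rap.add {f g : ℕ → ℂ} (hf : Rap f) (hg : Rap g) : Rap (fun x => f x + g x) := by
  obtain ⟨C, R, hC, hR, h⟩ := hf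
  obtain ⟨C', R', hC', hR', h'⟩ := hg
  refine ⟨C + C', max R R', by positivity, by positivity, fun x => ?_⟩
  have h1 := (h x).trans (Rap.mono_R hC hR (le_max_left R R') x)
  have h2 := (h' x).trans (Rap.mono_R hC' hR' (le_max_right R R') x)
  have h3 := norm_add_le (f x) (g x)
  have e : (C + C') * (max R R') ^ x / Real.sqrt (x.factorial : ℝ) =
    C * (max R R') ^ x / Real.sqrt (x.factorial : ℝ) +
    C' * (max R R') ^ x / Real.sqrt (x.factorial : ℝ) := by ring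
  rw [e]
  linarith

theorem Rap.smul {f : ℕ → ℂ} (hf : Rap f) (c : ℂ) : Rap (fun x => c * f x) := by
  obtain ⟨C, R, hC, hR, h⟩ := hf
  refine ⟨‖c‖ * C, R, by positivity, hR, fun x => ?_⟩
  rw [norm_mul]
  have e : ‖c‖ * C * R ^ x / Real.sqrt (x.factorial : ℝ) =
    ‖c‖ * (C * R ^ x / Real.sqrt (x.factorial : ℝ)) := by ring
  rw [e]
  exact mul_le_mul_of_nonneg_left (h x) (norm_nonneg c)

theorem bern (R : ℝ) (hR : 0 ≤ R) (y : ℕ) : ((y : ℝ) + 1) * R ^ y ≤ (R + 1) ^ (y + 1) := by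
  induction y with
  | zero => simp; linarith
  | succ y ih =>
    have h1 : R ^ (y + 1) ≤ (R + 1) ^ (y + 1) := pow_le_pow_left₀ hR (by linarith) _
    have h2 := mul_le_mul_of_nonneg_left ih hR
    push_cast
    calc ((y : ℝ) + 1 + 1) * R ^ (y + 1) = R * (((y : ℝ) + 1) * R ^ y) + R ^ (y + 1) := by ring
      _ ≤ R * (R + 1) ^ (y + 1) + (R + 1) ^ (y + 1) := add_le_add h2 h1
      _ = _ := by ring

theorem Rap.raise {f : ℕ → ℂ} (hf : Rap f) :
    Rap (fun x => (Real.sqrt (x : ℝ) : ℂ) * f (x - 1)) := by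
  obtain ⟨C, R, hC, hR, h⟩ := hf
  refine ⟨C, R + 1, hC, by positivity, fun x => ?_⟩
  rcases Nat.eq_zero_or_pos x with hx | hx
  · subst hx
    simp
    exact hC
  · obtain ⟨y, rfl⟩ : ∃ y, x = y + 1 := ⟨x - 1, by omega⟩
    simp only [Nat.add_sub_cancel]
    rw [norm_mul, Complex.norm_real, Real.norm_of_nonneg (Real.sqrt_nonneg _),
      Nat.cast_succ, sqrt_fac_succ]
    have h1 := h y
    have h2 := sqrt_fac_pos y
    have h3 : (0 : ℝ) < Real.sqrt ((y : ℝ) + 1) := Real.sqrt_pos.2 (by positivity)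
    rw [le_div_iff₀ (by positivity)]
    rw [le_div_iff₀ h2] at h1
    have h4 := bern R hR y
    have h5 : Real.sqrt ((y : ℝ) + 1) * Real.sqrt ((y : ℝ) + 1) = (y : ℝ) + 1 :=
      Real.mul_self_sqrt (by positivity)
    calc Real.sqrt ((y : ℝ) + 1) * ‖f y‖ * (Real.sqrt ((y : ℝ) + 1) * Real.sqrt (y.factorial : ℝ))
        = ((y : ℝ) + 1) * (‖f y‖ * Real.sqrt (y.factorial : ℝ)) := by
          linear_combination (‖f y‖ * Real.sqrt (y.factorial : ℝ)) * h5
      _ ≤ ((y : ℝ) + 1) * (C * R ^ y) := by gcongr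
      _ = C * (((y : ℝ) + 1) * R ^ y) := by ring
      _ ≤ C * (R + 1) ^ (y + 1) := by gcongr

theorem Rap.lower {f : ℕ → ℂ} (hf : Rap f) :
    Rap (fun x => (Real.sqrt ((x : ℝ) + 1) : ℂ) * f (x + 1)) := by
  obtain ⟨C, R, hC, hR, h⟩ := hf
  refine ⟨C * R, R, by positivity, by positivity, fun x => ?_⟩
  rw [norm_mul, Complex.norm_real, Real.norm_of_nonneg (Real.sqrt_nonneg _)]
  have h1 := h (x + 1)
  have h2 := sqrt_fac_pos x
  have h3 : (0 : ℝ) < Real.sqrt ((x : ℝ) + 1) := Real.sqrt_pos.2 (by positivity)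
  rw [sqrt_fac_succ, le_div_iff₀ (by positivity)] at h1
  rw [le_div_iff₀ h2]
  calc Real.sqrt ((x : ℝ) + 1) * ‖f (x + 1)‖ * Real.sqrt (x.factorial : ℝ)
      = ‖f (x + 1)‖ * (Real.sqrt ((x : ℝ) + 1) * Real.sqrt (x.factorial : ℝ)) := by ring
    _ ≤ C * R ^ (x + 1) := h1
    _ = _ := by ring

theorem Rap.summable {f g : ℕ → ℂ} (hf : Rap f) (hg : Rap g) :
    Summable fun x => conj (f x) * g x := by
  obtain ⟨C, R, hC, hR, h⟩ := hf
  obtain ⟨C', R', hC', hR', h'⟩ := hg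
  have h0 : Summable fun x : ℕ => C * C' * ((R * R') ^ x / (x.factorial : ℝ)) :=
    (Real.summable_pow_div_factorial (R * R')).mul_left _
  refine Summable.of_norm_bounded h0 fun x => ?_
  rw [norm_mul, RCLike.norm_conj]
  have h1 := sqrt_fac_pos x
  have h2 : Real.sqrt (x.factorial : ℝ) * Real.sqrt (x.factorial : ℝ) = (x.factorial : ℝ) :=
    Real.mul_self_sqrt (by positivity)
  calc ‖f x‖ * ‖g x‖ ≤ (C * R ^ x / Real.sqrt (x.factorial : ℝ)) *
        (C' * R' ^ x / Real.sqrt (x.factorial : ℝ)) :=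
        mul_le_mul (h x) (h' x) (norm_nonneg _) (by positivity)
    _ = C * C' * ((R * R') ^ x / (Real.sqrt (x.factorial : ℝ) * Real.sqrt (x.factorial : ℝ))) := by
        rw [mul_pow]; field_simp
    _ = _ := by rw [h2]

theorem rap_dD (z : ℂ) (k : ℕ) : Rap fun x => dD z x k := by
  induction k with
  | zero =>
    refine ⟨Real.exp (-(‖z‖ ^ 2) / 2), ‖z‖, (Real.exp_pos _).le, norm_nonneg z, fun x => ?_⟩
    simp only [dD]
    rw [norm_div, norm_mul, norm_pow, norm_neg, Complex.norm_real,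
      Complex.norm_real, Real.norm_of_nonneg (Real.exp_pos _).le,
      Real.norm_of_nonneg (Real.sqrt_nonneg _)]
  | succ k ih =>
    have h1 := (ih.raise.add (ih.smul (conj z))).smul ((Real.sqrt ((k : ℝ) + 1) : ℂ)⁻¹)
    have e : (fun x => dD z x (k + 1)) = fun x : ℕ =>
      ((Real.sqrt ((k : ℝ) + 1) : ℂ)⁻¹) * ((Real.sqrt (x : ℝ) : ℂ) *
        dD z (x - 1) k + conj z * dD z x k) := by
      funext x
      rw [dD, div_eq_inv_mul]
    rw [e]
    exact h1

/-! ### the columns are orthonormal -/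

/-- the Gram matrix of the columns -/
def gr (z : ℂ) (k l : ℕ) : ℂ := ∑' x, conj (dD z x k) * dD z x l

theorem gr_conj (z : ℂ) (k l : ℕ) : gr z l k = conj (gr z k l) := by
  unfold gr
  rw [Complex.conj_tsum]
  refine tsum_congr fun x => ?_
  rw [map_mul, Complex.conj_conj, mul_comm]

theorem gr_ladder (z : ℂ) (k l : ℕ) : (Real.sqrt ((k : ℝ) + 1) : ℂ) * gr z (k + 1) l =
    (Real.sqrt (l : ℝ) : ℂ) * gr z k (l - 1) := by
  unfold gr
  have hk := rap_dD z k
  have hl := rap_dD z l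
  have e1 : (Real.sqrt ((k : ℝ) + 1) : ℂ) * ∑' x, conj (dD z x (k + 1)) * dD z x l =
      ∑' x : ℕ, (conj ((Real.sqrt (x : ℝ) : ℂ) * dD z (x - 1) k) * dD z x l +
        z * (conj (dD z x k) * dD z x l)) := by
    rw [← tsum_mul_left]
    refine tsum_congr fun x => ?_
    have h1 : (Real.sqrt ((k : ℝ) + 1) : ℂ) * (conj (dD z x (k + 1)) * dD z x l) =
        conj ((Real.sqrt ((k : ℝ) + 1) : ℂ) * dD z x (k + 1)) * dD z x l := by
      rw [map_mul, Complex.conj_ofReal]; ring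
    rw [h1, dD_succ, map_add, map_mul (starRingEnd ℂ) (conj z), Complex.conj_conj]
    ring
  have s1 : Summable fun x : ℕ => conj ((Real.sqrt (x : ℝ) : ℂ) * dD z (x - 1) k) * dD z x l :=
    hk.raise.summable hl
  have s2 : Summable fun x : ℕ => z * (conj (dD z x k) * dD z x l) :=
    (hk.summable hl).mul_left z
  have s3 : Summable fun x : ℕ => conj (dD z x k) *
      ((Real.sqrt ((x : ℝ) + 1) : ℂ) * dD z (x + 1) l) := hk.summable hl.lower
  rw [e1, s1.tsum_add s2, s1.tsum_eq_zero_add]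
  have e2 : (fun x : ℕ => conj ((Real.sqrt ((x + 1 : ℕ) : ℝ) : ℂ) * dD z (x + 1 - 1) k) *
      dD z (x + 1) l) = fun x : ℕ => conj (dD z x k) *
      ((Real.sqrt ((x : ℝ) + 1) : ℂ) * dD z (x + 1) l) := by
    funext x
    rw [Nat.add_sub_cancel, map_mul, Complex.conj_ofReal, Nat.cast_succ]
    ring
  rw [e2]
  simp only [Nat.cast_zero, Real.sqrt_zero, Complex.ofReal_zero, zero_mul, map_zero, zero_add]
  rw [← s3.tsum_add s2, ← tsum_mul_left]
  refine tsum_congr fun x => ?_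
  have h2 := dD_pred z l x
  linear_combination (-conj (dD z x k)) * h2

theorem gr_zero (z : ℂ) : gr z 0 0 = 1 := by
  unfold gr
  have e1 : ∀ x : ℕ, conj (dD z x 0) * dD z x 0 =
      ((Real.exp (-(‖z‖ ^ 2)) * ((‖z‖ ^ 2) ^ x / (x.factorial : ℝ)) : ℝ) : ℂ) := by
    intro x
    have h1 : conj (dD z x 0) * dD z x 0 = ((‖dD z x 0‖ ^ 2 : ℝ) : ℂ) := by
      rw [mul_comm, Complex.mul_conj, Complex.normSq_eq_norm_sq]
    rw [h1, dD, norm_div, norm_mul, norm_pow, norm_neg, Complex.norm_real,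
      Complex.norm_real, Real.norm_of_nonneg (Real.exp_pos _).le,
      Real.norm_of_nonneg (Real.sqrt_nonneg _)]
    congr 1
    rw [div_pow, mul_pow, Real.sq_sqrt (by positivity), ← Real.exp_nat_mul, ← pow_mul, ← pow_mul,
      mul_comm x 2]
    have : ((2 : ℕ) : ℝ) * (-(‖z‖ ^ 2) / 2) = -(‖z‖ ^ 2) := by push_cast; ring
    rw [this]
    ring
  have e2 : HasSum (fun x : ℕ => Real.exp (-(‖z‖ ^ 2)) * ((‖z‖ ^ 2) ^ x / (x.factorial : ℝ)))
      (Real.exp (-(‖z‖ ^ 2)) * Real.exp (‖z‖ ^ 2)) := by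
    refine HasSum.mul_left _ ?_
    rw [Real.exp_eq_exp_ℝ]
    exact NormedSpace.expSeries_div_hasSum_exp (‖z‖ ^ 2)
  rw [← Real.exp_add, neg_add_cancel, Real.exp_zero] at e2
  rw [tsum_congr e1]
  have e3 := (Complex.hasSum_ofReal.2 e2).tsum_eq
  rw [e3]
  simp

theorem gr_eq (z : ℂ) (k : ℕ) : ∀ l : ℕ, gr z k l = if k = l then 1 else 0 := by
  have h0 : ∀ k, gr z (k + 1) 0 = 0 := by
    intro k
    have h1 := gr_ladder z k 0
    simp only [Nat.cast_zero, Real.sqrt_zero, Complex.ofReal_zero, zero_mul] at h1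
    exact (mul_eq_zero.1 h1).resolve_left (sqrt_succ_ne k)
  induction k with
  | zero =>
    intro l
    rcases l with _ | l
    · rw [gr_zero, if_pos rfl]
    · rw [gr_conj z (l + 1) 0, h0 l, map_zero, if_neg (by omega)]
  | succ k ih =>
    intro l
    rcases l with _ | l
    · rw [h0, if_neg (by omega)]
    · have h1 := gr_ladder z k (l + 1)
      rw [Nat.add_sub_cancel, ih l] at h1
      by_cases hkl : k = l
      · subst hkl
        rw [if_pos rfl, Nat.cast_succ] at h1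
        rw [if_pos rfl]
        exact mul_left_cancel₀ (sqrt_succ_ne k) h1
      · rw [if_neg hkl, mul_zero] at h1
        rw [if_neg (by omega)]
        exact (mul_eq_zero.1 h1).resolve_left (sqrt_succ_ne k)

theorem hasSum_col (z : ℂ) (k l : ℕ) :
    HasSum (fun x => conj (dD z x k) * dD z x l) (if k = l then 1 else 0) := by
  rw [← gr_eq]
  exact ((rap_dD z k).summable (rap_dD z l)).hasSum

/-! ### the adjoint matrix -/

theorem dD_zero_left (z : ℂ) (k : ℕ) : dD z 0 k = conj (dD (-z) k 0) := by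
  induction k with
  | zero =>
    simp only [dD, norm_neg, pow_zero, mul_one]
    rw [map_div₀, Complex.conj_ofReal, Complex.conj_ofReal]
  | succ k ih =>
    apply mul_left_cancel₀ (sqrt_succ_ne k)
    have h1 := dD_zero_succ (-z) k
    have h2 : (Real.sqrt ((k : ℝ) + 1) : ℂ) * conj (dD (-z) (k + 1) 0) =
        conj ((Real.sqrt ((k : ℝ) + 1) : ℂ) * dD (-z) (k + 1) 0) := by
      rw [map_mul, Complex.conj_ofReal]
    rw [h2, h1, dD_succ, ih, map_mul, neg_neg]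
    simp

/-- `D(-z) = D(z)†` -/
theorem dD_neg (z : ℂ) (k : ℕ) : ∀ x : ℕ, dD (-z) x k = conj (dD z k x) := by
  induction k with
  | zero =>
    intro x
    rw [dD_zero_left, Complex.conj_conj]
  | succ k ih =>
    intro x
    apply mul_left_cancel₀ (sqrt_succ_ne k)
    have h1 := dD_pred z x k
    have h2 : (Real.sqrt ((k : ℝ) + 1) : ℂ) * conj (dD z (k + 1) x) =
        conj ((Real.sqrt ((k : ℝ) + 1) : ℂ) * dD z (k + 1) x) := by
      rw [map_mul, Complex.conj_ofReal]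
    have h3 : (Real.sqrt ((k : ℝ) + 1) : ℂ) * dD z (k + 1) x =
      (Real.sqrt (x : ℝ) : ℂ) * dD z k (x - 1) - z * dD z k x := by
      linear_combination -h1
    rw [h2, h3, dD_succ, ih, ih, map_sub, map_mul, map_mul, Complex.conj_ofReal, map_neg]
    ring

theorem hasSum_row (z : ℂ) (x y : ℕ) :
    HasSum (fun k => dD z x k * conj (dD z y k)) (if x = y then 1 else 0) := by
  have h := hasSum_col (-z) x y
  simp only [dD_neg, Complex.conj_conj] at h
  exact h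

end

end Vale.Agent.P369Y
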