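import Vale.Agent.P369.H400G.Defs

/-!
Finite energy does not depend on the modes: if `e'` are the number states of a Bogoliubov
transform of the modes of `e`, a state of finite energy for `e` has finite energy for `e'`.
-/

namespace Vale.Agent.P369Y

open Vale.Agent.P369 (Conf up down)
open Vale.Agent.P369.Sys
open scoped InnerProductSpace ENNReal Matrix

noncomputable section

namespace En

variable {n : ℕ} {H : Type} [NormedAddCommGroup H] [InnerProductSpace ℂ H]

/-- total photon number plus one -/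
def wt (x : Conf n) : ℝ := (∑ j, (x j : ℝ)) + 1

theorem one_le_wt (x : Conf n) : 1 ≤ wt x := by
  unfold wt
  have : (0 : ℝ) ≤ ∑ j, (x j : ℝ) := Finset.sum_nonneg fun j _ => Nat.cast_nonneg _
  linarith

theorem wt_nonneg (x : Conf n) : 0 ≤ wt x := le_trans zero_le_one (one_le_wt x)

theorem add_one_le_wt (x : Conf n) (m : Fin n) : (x m : ℝ) + 1 ≤ wt x := by
  unfold wt
  have : (x m : ℝ) ≤ ∑ j, (x j : ℝ) :=
    Finset.single_le_sum (f := fun j => (x j : ℝ)) (fun j _ => Nat.cast_nonneg _)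
      (Finset.mem_univ m)
  linarith

theorem up_inj (m : Fin n) : Function.Injective (fun x : Conf n => up x m) := by
  intro x y h
  funext j
  have hj := congrFun h j
  by_cases hjm : j = m
  · subst hjm
    simpa [up] using hj
  · simpa [up, Function.update_of_ne hjm] using hj

theorem down_inj {m : Fin n} {x y : Conf n} (hx : x m ≠ 0) (hy : y m ≠ 0)
    (h : down x m = down y m) : x = y := by
  funext j
  have hj := congrFun h j
  by_cases hjm : j = m
  · subst hjm
    simp only [down, Function.update_self] at hj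
    omega
  · simpa [down, Function.update_of_ne hjm] using hj

theorem up_down' {m : Fin n} {x : Conf n} (hx : x m ≠ 0) : up (down x m) m = x := by
  funext j
  by_cases hjm : j = m
  · subst hjm
    simp only [up, down, Function.update_self]
    omega
  · simp [up, down, Function.update_of_ne hjm]

theorem down_apply (x : Conf n) (m : Fin n) : (down x m) m = x m - 1 := by
  simp [down]

/-- norm of a finite combination of distinct number states -/
theorem norm_sq_comb {e : Conf n → H} (he : Orthonormal ℂ e) (X : Finset (Conf n))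
    (a : Conf n → ℂ) (f : Conf n → Conf n)
    (hf : ∀ x ∈ X, ∀ y ∈ X, a x ≠ 0 → a y ≠ 0 → f x = f y → x = y) :
    ‖∑ x ∈ X, a x • e (f x)‖ ^ 2 = ∑ x ∈ X, ‖a x‖ ^ 2 := by
  have h1 : ⟪∑ x ∈ X, a x • e (f x), ∑ x ∈ X, a x • e (f x)⟫_ℂ
      = ∑ x ∈ X, ((‖a x‖ ^ 2 : ℝ) : ℂ) := by
    rw [sum_inner]
    apply Finset.sum_congr rfl
    intro x hx
    rw [inner_sum, Finset.sum_eq_single x]
    · rw [inner_smul_left, inner_smul_right, orthonormal_iff_ite.mp he]
      simp only [if_true, mul_one]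
      rw [mul_comm, Complex.mul_conj, Complex.normSq_eq_norm_sq]
    · intro y hy hyx
      rw [inner_smul_left, inner_smul_right, orthonormal_iff_ite.mp he]
      by_cases hax : a x = 0
      · simp [hax]
      by_cases hay : a y = 0
      · simp [hay]
      · rw [if_neg]
        · simp
        · intro h
          exact hyx (hf x hx y hy hax hay h).symm
    · intro h
      exact absurd hx h
  rw [inner_self_eq_norm_sq_to_K, ← Complex.ofReal_sum] at h1
  apply Complex.ofReal_injective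
  rw [← h1]
  simp

/-- the vector `Σ_m (α_im a_m + β_im a_m†) e_x + γ_i e_x` -/
def phiv (α β : Matrix (Fin n) (Fin n) ℂ) (γ : Fin n → ℂ) (e : Conf n → H) (i : Fin n)
    (x : Conf n) : H :=
  ∑ m, (α i m • ann e m x + β i m • cre e m x) + γ i • e x

/-- the constant -/
def cst (α β : Matrix (Fin n) (Fin n) ℂ) (γ : Fin n → ℂ) (i : Fin n) : ℝ :=
  ∑ m, (‖α i m‖ + ‖β i m‖) + ‖γ i‖

theorem cst_nonneg (α β : Matrix (Fin n) (Fin n) ℂ) (γ : Fin n → ℂ) (i : Fin n) :
    0 ≤ cst α β γ i := by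
  unfold cst
  positivity

theorem norm_phiv_le {e : Conf n → H} (he : Orthonormal ℂ e)
    (α β : Matrix (Fin n) (Fin n) ℂ) (γ : Fin n → ℂ) (i : Fin n) (X : Finset (Conf n))
    (c : Conf n → ℂ) :
    ‖∑ x ∈ X, c x • phiv α β γ e i x‖ ≤
      cst α β γ i * Real.sqrt (∑ x ∈ X, wt x * ‖c x‖ ^ 2) := by
  set A := Real.sqrt (∑ x ∈ X, wt x * ‖c x‖ ^ 2) with hA
  have hann : ∀ m, ‖∑ x ∈ X, c x • ann e m x‖ ≤ A := by
    intro m
    rw [hA]
    apply Real.le_sqrt_of_sq_le
    have h1 : ∑ x ∈ X, c x • ann e m x = ∑ x ∈ X, (c x * (Real.sqrt (x m) : ℂ)) • e (down x m) := by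
      apply Finset.sum_congr rfl
      intro x _
      rw [ann, smul_smul]
    rw [h1, norm_sq_comb he]
    · apply Finset.sum_le_sum
      intro x _
      rw [norm_mul, mul_pow, mul_comm]
      apply mul_le_mul_of_nonneg_right _ (by positivity)
      rw [Complex.norm_real, Real.norm_of_nonneg (Real.sqrt_nonneg _),
        Real.sq_sqrt (Nat.cast_nonneg _)]
      linarith [add_one_le_wt x m]
    · intro x _ y _ hx hy h
      refine down_inj (m := m) ?_ ?_ h
      · intro h0
        apply hx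
        simp [h0]
      · intro h0
        apply hy
        simp [h0]
  have hcre : ∀ m, ‖∑ x ∈ X, c x • cre e m x‖ ≤ A := by
    intro m
    rw [hA]
    apply Real.le_sqrt_of_sq_le
    have h1 : ∑ x ∈ X, c x • cre e m x
        = ∑ x ∈ X, (c x * (Real.sqrt (x m + 1) : ℂ)) • e (up x m) := by
      apply Finset.sum_congr rfl
      intro x _
      rw [cre, smul_smul]
    rw [h1, norm_sq_comb he (f := fun x => up x m)]
    · apply Finset.sum_le_sum
      intro x _
      rw [norm_mul, mul_pow, mul_comm]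
      apply mul_le_mul_of_nonneg_right _ (by positivity)
      rw [Complex.norm_real, Real.norm_of_nonneg (Real.sqrt_nonneg _),
        Real.sq_sqrt (by positivity)]
      exact add_one_le_wt x m
    · intro x _ y _ _ _ h
      exact up_inj m h
  have hid : ‖∑ x ∈ X, c x • e x‖ ≤ A := by
    rw [hA]
    apply Real.le_sqrt_of_sq_le
    rw [norm_sq_comb he X c (fun x => x) (fun x _ y _ _ _ h => h)]
    apply Finset.sum_le_sum
    intro x _
    have := one_le_wt x
    nlinarith [sq_nonneg ‖c x‖]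
  have hsum : ∑ x ∈ X, c x • phiv α β γ e i x =
      ∑ m, (α i m • ∑ x ∈ X, c x • ann e m x + β i m • ∑ x ∈ X, c x • cre e m x) +
        γ i • ∑ x ∈ X, c x • e x := by
    unfold phiv
    simp only [smul_add, Finset.smul_sum, Finset.sum_add_distrib]
    rw [Finset.sum_comm]
    conv_lhs => rw [Finset.sum_comm]
    congr 1
    · congr 1
      · rw [Finset.sum_comm]
        apply Finset.sum_congr rfl; intro m _
        apply Finset.sum_congr rfl; intro x _
        rw [smul_comm]
      · rw [Finset.sum_comm]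
        apply Finset.sum_congr rfl; intro m _
        apply Finset.sum_congr rfl; intro x _
        rw [smul_comm]
    · apply Finset.sum_congr rfl; intro x _
      rw [smul_comm]
  rw [hsum]
  refine (norm_add_le _ _).trans ?_
  unfold cst
  rw [add_mul, Finset.sum_mul]
  apply add_le_add
  · refine (norm_sum_le _ _).trans ?_
    apply Finset.sum_le_sum
    intro m _
    refine (norm_add_le _ _).trans ?_
    rw [norm_smul, norm_smul, add_mul]
    exact add_le_add (mul_le_mul_of_nonneg_left (hann m) (norm_nonneg _))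
      (mul_le_mul_of_nonneg_left (hcre m) (norm_nonneg _))
  · rw [norm_smul]
    exact mul_le_mul_of_nonneg_left hid (norm_nonneg _)


/-- the second Bogoliubov relation, read on vectors -/
theorem inner_cre_eq {α β : Matrix (Fin n) (Fin n) ℂ} {γ : Fin n → ℂ} {e e' : Conf n → H}
    (h : IsModeChange α β γ e e') (i : Fin n) (x k : Conf n) :
    ⟪cre e' i k, e x⟫_ℂ = ⟪e' k, phiv α β γ e i x⟫_ℂ := by
  have h2 := (h.2.2.2 i x k).2
  rw [← inner_conj_symm, h2]
  unfold phiv
  rw [map_add, map_sum, inner_add_right, inner_sum]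
  congr 1
  · apply Finset.sum_congr rfl
    intro m _
    rw [map_add, map_mul, map_mul, inner_add_right, inner_smul_right, inner_smul_right,
      inner_conj_symm, inner_conj_symm]
    simp
  · rw [map_mul, inner_smul_right, inner_conj_symm]
    simp

section
variable [CompleteSpace H]

/-- the Hilbert basis of a number basis -/
def hb {e : Conf n → H} (he : IsNumberBasis e) : HilbertBasis (Conf n) ℂ H :=
  HilbertBasis.mk he.1 (Submodule.dense_iff_topologicalClosure_eq_top.mp he.2).ge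

theorem hb_apply {e : Conf n → H} (he : IsNumberBasis e) (k : Conf n) : hb he k = e k := by
  simp [hb]

/-- Parseval in `ℝ≥0∞` -/
theorem tsum_inner_sq {e : Conf n → H} (he : IsNumberBasis e) (v : H) :
    ∑' k, ENNReal.ofReal (‖⟪e k, v⟫_ℂ‖ ^ 2) = ENNReal.ofReal (‖v‖ ^ 2) := by
  have h := (hb he).hasSum_inner_mul_inner v v
  simp only [hb_apply] at h
  have h1 : ∀ k, ⟪v, e k⟫_ℂ * ⟪e k, v⟫_ℂ = ((‖⟪e k, v⟫_ℂ‖ ^ 2 : ℝ) : ℂ) := by
    intro k
    rw [← inner_conj_symm v (e k), mul_comm, Complex.mul_conj, Complex.normSq_eq_norm_sq]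
  have h2 : ⟪v, v⟫_ℂ = ((‖v‖ ^ 2 : ℝ) : ℂ) := by
    rw [inner_self_eq_norm_sq_to_K]
    simp
  simp only [h1] at h
  rw [h2, Complex.hasSum_ofReal] at h
  rw [← ENNReal.ofReal_tsum_of_nonneg (fun k => by positivity) h.summable, h.tsum_eq]

/-- the energy form of a vector -/
def wen (e : Conf n → H) (ψ : H) : ℝ≥0∞ :=
  ∑' x : Conf n, ENNReal.ofReal (wt x) * ENNReal.ofReal (‖⟪e x, ψ⟫_ℂ‖ ^ 2)

theorem key {α β : Matrix (Fin n) (Fin n) ℂ} {γ : Fin n → ℂ} {e e' : Conf n → H}
    (he : IsNumberBasis e) (h : IsModeChange α β γ e e') (i : Fin n) (S : Finset (Conf n))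
    (ψ : H) :
    ∑ k ∈ S, ENNReal.ofReal (‖⟪cre e' i k, ψ⟫_ℂ‖ ^ 2) ≤
      ENNReal.ofReal (cst α β γ i ^ 2) * wen e ψ := by
  have hlim : Filter.Tendsto (fun X : Finset (Conf n) => ∑ x ∈ X, ⟪e x, ψ⟫_ℂ • e x)
      Filter.atTop (nhds ψ) := by
    have := (hb he).hasSum_repr ψ
    simp only [hb_apply, HilbertBasis.repr_apply_apply] at this
    exact this
  have hlim2 : Filter.Tendsto (fun X : Finset (Conf n) =>
      ∑ k ∈ S, ENNReal.ofReal (‖⟪cre e' i k, ∑ x ∈ X, ⟪e x, ψ⟫_ℂ • e x⟫_ℂ‖ ^ 2))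
      Filter.atTop (nhds (∑ k ∈ S, ENNReal.ofReal (‖⟪cre e' i k, ψ⟫_ℂ‖ ^ 2))) := by
    apply tendsto_finsetSum
    intro k _
    apply ENNReal.tendsto_ofReal
    exact ((tendsto_const_nhds.inner hlim).norm).pow 2
  refine le_of_tendsto hlim2 (Filter.Eventually.of_forall fun X => ?_)
  have h1 : ∀ k, ⟪cre e' i k, ∑ x ∈ X, ⟪e x, ψ⟫_ℂ • e x⟫_ℂ =
      ⟪e' k, ∑ x ∈ X, ⟪e x, ψ⟫_ℂ • phiv α β γ e i x⟫_ℂ := by
    intro k
    rw [inner_sum, inner_sum]
    apply Finset.sum_congr rfl
    intro x _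
    rw [inner_smul_right, inner_smul_right, inner_cre_eq h]
  simp only [h1]
  rw [← ENNReal.ofReal_sum_of_nonneg (fun k _ => by positivity)]
  have h2 : ∑ k ∈ S, ‖⟪e' k, ∑ x ∈ X, ⟪e x, ψ⟫_ℂ • phiv α β γ e i x⟫_ℂ‖ ^ 2 ≤
      cst α β γ i ^ 2 * ∑ x ∈ X, wt x * ‖⟪e x, ψ⟫_ℂ‖ ^ 2 := by
    refine (h.2.2.1.1.sum_inner_products_le _).trans ?_
    have h3 := norm_phiv_le he.1 α β γ i X (fun x => ⟪e x, ψ⟫_ℂ)
    calc _ ≤ (cst α β γ i * Real.sqrt (∑ x ∈ X, wt x * ‖⟪e x, ψ⟫_ℂ‖ ^ 2)) ^ 2 :=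
          pow_le_pow_left₀ (norm_nonneg _) h3 2
      _ = _ := by
          rw [mul_pow, Real.sq_sqrt]
          exact Finset.sum_nonneg fun x _ => mul_nonneg (wt_nonneg x) (by positivity)
  refine (ENNReal.ofReal_le_ofReal h2).trans ?_
  rw [ENNReal.ofReal_mul (by positivity)]
  gcongr
  rw [ENNReal.ofReal_sum_of_nonneg
    (fun x _ => mul_nonneg (wt_nonneg x) (by positivity))]
  unfold wen
  refine le_trans (Finset.sum_le_sum fun x _ => ?_) (ENNReal.sum_le_tsum X)
  rw [ENNReal.ofReal_mul (wt_nonneg x)]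

/-- the square root of a positive operator -/
theorem exists_sqrt {ρ : H →L[ℂ] H} (hρ : ρ.IsPositive) :
    ∃ R : H →L[ℂ] H, (∀ v w, ⟪R v, w⟫_ℂ = ⟪v, R w⟫_ℂ) ∧
      ∀ v, ‖R v‖ ^ 2 = (⟪v, ρ v⟫_ℂ).re := by
  have h0 : 0 ≤ ρ := (ContinuousLinearMap.nonneg_iff_isPositive ρ).mpr hρ
  have hR : (CFC.sqrt ρ).IsPositive :=
    (ContinuousLinearMap.nonneg_iff_isPositive _).mp (CFC.sqrt_nonneg ρ)
  have hs : ∀ v w, ⟪CFC.sqrt ρ v, w⟫_ℂ = ⟪v, CFC.sqrt ρ w⟫_ℂ := by
    intro v w
    have := hR.isSelfAdjoint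
    rw [← ContinuousLinearMap.adjoint_inner_left, this.adjoint_eq]
  refine ⟨CFC.sqrt ρ, hs, fun v => ?_⟩
  have h1 : ρ v = CFC.sqrt ρ (CFC.sqrt ρ v) := by
    rw [← mul_apply_eq_comp, CFC.sqrt_mul_sqrt_self ρ h0]
  rw [h1, ← hs, inner_self_eq_norm_sq_to_K]
  norm_cast

theorem _root_.Vale.Agent.P369Y.energy_modes {α β : Matrix (Fin n) (Fin n) ℂ} {γ : Fin n → ℂ} {e e' : Conf n → H}
    (he : IsNumberBasis e) (h : IsModeChange α β γ e e') {ρ : H →L[ℂ] H}
    (hρ : IsState e ρ) (hE : FiniteEnergy e ρ) : FiniteEnergy e' ρ := by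
  obtain ⟨R, hs, hR⟩ := exists_sqrt hρ.1
  have hpos : ∀ v : H, 0 ≤ (⟪v, ρ v⟫_ℂ).re := fun v => by rw [← hR]; positivity
  -- the trace and the energy
  have hT : Summable fun k => (⟪e k, ρ (e k)⟫_ℂ).re := by
    have := (Complex.hasSum_iff _ _).mp hρ.2
    exact this.1.summable
  have hW : Summable fun k => wt k * (⟪e k, ρ (e k)⟫_ℂ).re := by
    have := hE.add hT
    refine this.congr fun k => ?_
    unfold wt
    ring
  set E := ∑' k, wt k * (⟪e k, ρ (e k)⟫_ℂ).re with hEdef
  have hEn : ∑' x : Conf n, ENNReal.ofReal (wt x) * ENNReal.ofReal (‖R (e x)‖ ^ 2) =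
      ENNReal.ofReal E := by
    rw [hEdef, ENNReal.ofReal_tsum_of_nonneg (fun k => mul_nonneg (wt_nonneg k) (hpos _)) hW]
    apply tsum_congr
    intro x
    rw [hR, ENNReal.ofReal_mul (wt_nonneg x)]
  -- the main bound
  have hmain : ∀ (i : Fin n) (S : Finset (Conf n)),
      ∑ k ∈ S, ((k i : ℝ) + 1) * (⟪e' (up k i), ρ (e' (up k i))⟫_ℂ).re ≤
        cst α β γ i ^ 2 * E := by
    intro i S
    have hE0 : 0 ≤ E := tsum_nonneg fun k => mul_nonneg (wt_nonneg k) (hpos _)
    rw [← ENNReal.ofReal_le_ofReal_iff (by positivity)]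
    have h1 : ∀ k, ((k i : ℝ) + 1) * (⟪e' (up k i), ρ (e' (up k i))⟫_ℂ).re =
        ‖R (cre e' i k)‖ ^ 2 := by
      intro k
      rw [cre, map_smul, norm_smul, mul_pow, hR, Complex.norm_real,
        Real.norm_of_nonneg (Real.sqrt_nonneg _), Real.sq_sqrt (by positivity)]
    simp only [h1]
    rw [ENNReal.ofReal_sum_of_nonneg (fun k _ => by positivity)]
    calc ∑ k ∈ S, ENNReal.ofReal (‖R (cre e' i k)‖ ^ 2)
        = ∑ k ∈ S, ∑' y, ENNReal.ofReal (‖⟪cre e' i k, R (e y)⟫_ℂ‖ ^ 2) := by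
          apply Finset.sum_congr rfl
          intro k _
          rw [← tsum_inner_sq he]
          apply tsum_congr
          intro y
          rw [← hs, ← inner_conj_symm, RCLike.norm_conj]
      _ = ∑' y, ∑ k ∈ S, ENNReal.ofReal (‖⟪cre e' i k, R (e y)⟫_ℂ‖ ^ 2) := by
          rw [Summable.tsum_finsetSum (fun k _ => ENNReal.summable)]
      _ ≤ ∑' y, ENNReal.ofReal (cst α β γ i ^ 2) * wen e (R (e y)) :=
          ENNReal.tsum_le_tsum fun y => key he h i S _
      _ = ENNReal.ofReal (cst α β γ i ^ 2) * ∑' y, wen e (R (e y)) := by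
          rw [ENNReal.tsum_mul_left]
      _ = ENNReal.ofReal (cst α β γ i ^ 2) * ENNReal.ofReal E := by
          congr 1
          unfold wen
          rw [ENNReal.tsum_comm, ← hEn]
          apply tsum_congr
          intro x
          rw [ENNReal.tsum_mul_left, ← tsum_inner_sq he]
          congr 1
          apply tsum_congr
          intro y
          rw [← hs, ← inner_conj_symm, RCLike.norm_conj]
      _ = ENNReal.ofReal (cst α β γ i ^ 2 * E) := by
          rw [ENNReal.ofReal_mul (by positivity)]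
  -- each mode has finite energy
  have hmode : ∀ i : Fin n,
      Summable fun k : Conf n => (k i : ℝ) * (⟪e' k, ρ (e' k)⟫_ℂ).re := by
    intro i
    refine summable_of_sum_le (c := cst α β γ i ^ 2 * E)
      (fun k => mul_nonneg (Nat.cast_nonneg _) (hpos _)) fun S => ?_
    have h1 : ∑ k ∈ S, (k i : ℝ) * (⟪e' k, ρ (e' k)⟫_ℂ).re =
        ∑ k ∈ S.filter (fun k => k i ≠ 0), (k i : ℝ) * (⟪e' k, ρ (e' k)⟫_ℂ).re := by
      rw [Finset.sum_filter]
      apply Finset.sum_congr rfl
      intro k _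
      by_cases hk : k i = 0
      · simp [hk]
      · simp [hk]
    rw [h1]
    have h2 : ∑ k ∈ S.filter (fun k => k i ≠ 0), (k i : ℝ) * (⟪e' k, ρ (e' k)⟫_ℂ).re =
        ∑ k ∈ (S.filter (fun k => k i ≠ 0)).image (fun k => down k i),
          ((k i : ℝ) + 1) * (⟪e' (up k i), ρ (e' (up k i))⟫_ℂ).re := by
      rw [Finset.sum_image]
      · apply Finset.sum_congr rfl
        intro k hk
        have hk0 : k i ≠ 0 := (Finset.mem_filter.mp hk).2
        rw [up_down' hk0, down_apply, Nat.cast_sub (by omega)]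
        simp
      · intro k hk l hl hkl
        exact down_inj (Finset.mem_filter.mp hk).2 (Finset.mem_filter.mp hl).2 hkl
    rw [h2]
    exact hmain i _
  unfold FiniteEnergy
  simp only [Finset.sum_mul]
  exact summable_sum fun i _ => hmode i

end

end En

end

end Vale.Agent.P369Y
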