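import Vale.Agent.P369.H400G.Ptr

/-!
P369 (helper791): the product of two positive operators is positive.
-/

set_option linter.all false

namespace Vale.Agent.P369Y

open scoped InnerProductSpace ComplexOrder
open Vale.Agent.P369 Vale.Agent.P369.Sys

noncomputable section

section general

variable {H K L : Type} [NormedAddCommGroup K] [InnerProductSpace ℂ K]
  [NormedAddCommGroup L] [InnerProductSpace ℂ L] {ι : Type}

theorem inner_linComb {g : ι → K} {w : ι → L} {S : K →L[ℂ] K}
    (h : ∀ i j, ⟪g i, S (g j)⟫_ℂ = ⟪w i, w j⟫_ℂ) (c c' : ι →₀ ℂ) :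
    ⟪Finsupp.linearCombination ℂ g c, S (Finsupp.linearCombination ℂ g c')⟫_ℂ =
      ⟪Finsupp.linearCombination ℂ w c, Finsupp.linearCombination ℂ w c'⟫_ℂ := by
  simp only [Finsupp.linearCombination_apply, Finsupp.sum, map_sum, map_smul, sum_inner,
    inner_sum, inner_smul_left, inner_smul_right, h]

/-- an operator with Gram matrix elements in a number basis is positive -/
theorem isPositive_of_gram {g : ι → K} (hg : IsNumberBasis g) {w : ι → L} {S : K →L[ℂ] K}
    (h : ∀ i j, ⟪g i, S (g j)⟫_ℂ = ⟪w i, w j⟫_ℂ) : S.IsPositive := by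
  have hc : IsClosed {v : K | (0 : ℂ) ≤ ⟪v, S v⟫_ℂ} :=
    isClosed_le continuous_const (continuous_id.inner S.continuous)
  have hs : (Submodule.span ℂ (Set.range g) : Set K) ⊆ {v : K | (0 : ℂ) ≤ ⟪v, S v⟫_ℂ} := by
    intro v hv
    obtain ⟨c, rfl⟩ := (Finsupp.mem_span_range_iff_exists_finsupp (R := ℂ)).1 hv
    have h1 := inner_linComb h c c
    simp only [Finsupp.linearCombination_apply] at h1
    simp only [Set.mem_setOf_eq]
    rw [h1, inner_self_eq_norm_sq_to_K]
    positivity
  have hall : ∀ v : K, (0 : ℂ) ≤ ⟪v, S v⟫_ℂ := by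
    intro v
    have h3 : v ∈ closure (Submodule.span ℂ (Set.range g) : Set K) := by
      rw [hg.2.closure_eq]; exact Set.mem_univ _
    exact (closure_minimal hs hc) h3
  rw [ContinuousLinearMap.isPositive_iff_complex]
  intro v
  have h1 := hall v
  rw [Complex.le_def] at h1
  simp only [Complex.zero_re, Complex.zero_im] at h1
  have h2 : ⟪S v, v⟫_ℂ = ((⟪v, S v⟫_ℂ).re : ℂ) := by
    rw [← inner_conj_symm (S v) v]
    apply Complex.ext
    · rw [Complex.conj_re, Complex.ofReal_re]
    · rw [Complex.conj_im, Complex.ofReal_im, ← h1.2, neg_zero]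
  rw [h2]
  constructor
  · simp
  · simpa using h1.1

end general

variable {n : ℕ} {H K : Type} [NormedAddCommGroup H] [InnerProductSpace ℂ H] [CompleteSpace H]
  [NormedAddCommGroup K] [InnerProductSpace ℂ K] [CompleteSpace K]

/-- the product of positive operators is positive -/
theorem product_isPositive {e : Conf n → H} {f : Conf n → Conf n → K} {t : H → H → K}
    (he : IsNumberBasis e) (hf : IsNumberBasis fun x : Conf n × Conf n => f x.1 x.2)
    (ht : IsTens e f t) {e₁ e₂ : Conf n → H} (h₁ : IsNumberBasis e₁) (h₂ : IsNumberBasis e₂)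
    {A B : H →L[ℂ] H} (hA : A.IsPositive) (hB : B.IsPositive) {S : K →L[ℂ] K}
    (h : ∀ k l k' l', ⟪t (e₁ k) (e₂ l), S (t (e₁ k') (e₂ l'))⟫_ℂ =
      ⟪e₁ k, A (e₁ k')⟫_ℂ * ⟪e₂ l, B (e₂ l')⟫_ℂ) : S.IsPositive := by
  obtain ⟨a, ha⟩ := Ptr.pos_factor hA
  obtain ⟨b, hb⟩ := Ptr.pos_factor hB
  refine isPositive_of_gram (ht.isNumberBasis he hf h₁ h₂)
    (w := fun x : Conf n × Conf n => t (a (e₁ x.1)) (b (e₂ x.2))) ?_
  rintro ⟨k, l⟩ ⟨k', l'⟩
  simp only
  rw [h, ht.inner_tens he hf, ha, hb]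

/-- the product state is positive -/
theorem isProduct_isPositive {e : Conf n → H} {f : Conf n → Conf n → K}
    (he : IsNumberBasis e) (hf : IsNumberBasis fun x : Conf n × Conf n => f x.1 x.2)
    {A B : H →L[ℂ] H} (hA : A.IsPositive) (hB : B.IsPositive) {S : K →L[ℂ] K}
    (h : IsProduct e f A B S) : S.IsPositive := by
  obtain ⟨t, ht⟩ := exists_tens he hf
  refine product_isPositive he hf ht he he hA hB (S := S) fun k l k' l' => ?_
  rw [ht.basis he hf, ht.basis he hf]
  exact h k l k' l'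

end

end Vale.Agent.P369Y
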