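import Vale.Agent.P369.H400G.Transfer
import Vale.Agent.P369.H400G.PosProd

set_option linter.all false

/-!
P369 (helper400): the output of the beam splitter in new modes, main theorem.
-/

namespace Vale.Agent.P369Y

open scoped InnerProductSpace Matrix
open Matrix
open Vale.Agent.P369 (Conf up down cj)
open Vale.Agent.P369.Sys
open Vale.Agent.P369N (exists_basisMap isNumberBasis_phase)

noncomputable section

variable {n : ℕ} {H K : Type} [NormedAddCommGroup H] [InnerProductSpace ℂ H] [CompleteSpace H]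
  [NormedAddCommGroup K] [InnerProductSpace ℂ K] [CompleteSpace K]
  {e : Conf n → H} {f : Conf n → Conf n → K} {t : H → H → K}

theorem cjs_inner {H : Type} [NormedAddCommGroup H] [InnerProductSpace ℂ H]
    (V : H ≃ₗᵢ[ℂ] H) (ρ : H →L[ℂ] H) (φ ψ : H) :
    ⟪φ, cj V.symm ρ ψ⟫_ℂ = ⟪V φ, ρ (V ψ)⟫_ℂ := by
  rw [P369.cj_apply, ← V.inner_map_map, V.apply_symm_apply, V.symm_symm]

theorem cjv_inner {H : Type} [NormedAddCommGroup H] [InnerProductSpace ℂ H]
    (V : H ≃ₗᵢ[ℂ] H) (ρ : H →L[ℂ] H) (φ ψ : H) :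
    ⟪V φ, cj V ρ (V ψ)⟫_ℂ = ⟪φ, ρ ψ⟫_ℂ := P369.cj_inner V ρ φ ψ

/-- the output of the beam splitter in new modes -/
theorem transfer {η : ℝ} (h0 : 0 ≤ η) (h1 : η ≤ 1) (he : IsNumberBasis e)
    (hf : IsNumberBasis fun x : Conf n × Conf n => f x.1 x.2)
    {α β : Matrix (Fin n) (Fin n) ℂ} {γA γB : Fin n → ℂ} {eA eB : Conf n → H}
    (hA : IsModeChange α β γA e eA) (hB : IsModeChange α β γB e eB)
    {ρA ρB : H →L[ℂ] H} (pA : ρA.IsPositive) (pB : ρB.IsPositive) :
    ∃ (f₁ : Conf n → Conf n → K) (eC : Conf n → H) (γC : Fin n → ℂ) (W V : H ≃ₗᵢ[ℂ] H),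
      (IsNumberBasis fun x : Conf n × Conf n => f₁ x.1 x.2) ∧ IsModeChange α β γC e eC ∧
      (∀ k, W (eA k) = eB k) ∧ (∀ k, V (eA k) = eC k) ∧
      ∀ ρC : H →L[ℂ] H, IsOutput η e f ρA ρB ρC ↔
        IsOutput η eA f₁ ρA (cj W.symm ρB) (cj V.symm ρC) := by
  obtain ⟨t, ht⟩ := exists_tens he hf
  have bA : IsNumberBasis eA := hA.2.2.1
  have bB : IsNumberBasis eB := hB.2.2.1
  -- the displaced output modes
  set γin : Bool → Fin n → ℂ := fun s => if s then γA else γB with hγin
  set γout : Bool → Fin n → ℂ := fun s j => Mb η s true * γin true j + Mb η s false * γin false j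
    with hγout
  obtain ⟨eC, bC, zC⟩ := exists_disp bA (γout true - γA)
  obtain ⟨eD, bD, zD⟩ := exists_disp bA (γout false - γA)
  have hC : IsModeChange α β (γout true) e eC := by
    have := IsModeChange.disp he hA bC zC
    rwa [add_sub_cancel] at this
  have hD : IsModeChange α β (γout false) e eD := by
    have := IsModeChange.disp he hA bD zD
    rwa [add_sub_cancel] at this
  obtain ⟨W, hW⟩ := exists_basisMap bA bB
  obtain ⟨V, hV⟩ := exists_basisMap bA bC
  -- joint number states
  have bf₁ := ht.isNumberBasis he hf bA bA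
  have bg := ht.isNumberBasis he hf bA bB
  have bg' := ht.isNumberBasis he hf bC bD
  obtain ⟨P, hP⟩ := exists_basisMap bf₁ bg
  have mg := isMK_tens he hf ht hA hB
  have mg' := isMK_tens he hf ht hC hD
  have hcov : ∀ {U : K ≃ₗᵢ[ℂ] K}, IsBeamSplitter η f U → ∀ s j (x y : Conf n × Conf n),
      ⟪opK (fun k l => t (eC k) (eD l)) s false j x, U (t (eA y.1) (eB y.2))⟫_ℂ =
        ⟪t (eC x.1) (eD x.2), U (comb η (fun k l => t (eA k) (eB l)) s true j y)⟫_ℂ := by
    intro U hU s j x y
    refine cov hf hU mg mg' (fun s j => ?_) s j x y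
    cases s <;> rfl
  refine ⟨fun k l => t (eA k) (eA l), eC, γout true, W, V, bf₁, hC, hW, hV, fun ρC => ?_⟩
  constructor
  · rintro ⟨U, ρAB, hU, hprod, hM⟩
    obtain ⟨Q, c, hc, hQ, hU₁⟩ := bs_new (η := η) (g := fun k l => t (eA k) (eB l))
      (g' := fun k l => t (eC k) (eD l)) (f₁ := fun k l => t (eA k) (eA l)) bg bg' bf₁ hP (hcov hU)
    have hact := ht.product he hf he he (S := ρAB) (A := ρA) (B := ρB) (fun k l k' l' => by
      rw [ht.basis he hf, ht.basis he hf]
      exact hprod k l k' l')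
    have ppos : ρAB.IsPositive := isProduct_isPositive he hf pA pB hprod
    refine ⟨P.trans (U.trans Q.symm), cj P.symm ρAB, hU₁, ?_, ?_⟩
    · intro k l k' l'
      rw [cjs_inner, cjs_inner]
      have h1 := hP (k, l)
      have h2 := hP (k', l')
      simp only at h1 h2
      rw [h1, h2, hact, ht.inner_tens he hf, hW, hW]
    · intro m m'
      have hpt := ptr_all he hf ht (P369.cj_isPositive U ppos) he he bD (ρC := ρC) (fun m m' => by
        refine (hM m m').congr_fun fun l => ?_
        rw [ht.basis he hf, ht.basis he hf]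
        rfl) (eC m) (eC m')
      rw [cjs_inner, hV, hV]
      refine hpt.congr_fun fun l => ?_
      show ⟪t (eA m) (eA l), Q.symm (U (P (P.symm (ρAB (P.symm.symm (P.symm (U.symm
        (Q (t (eA m') (eA l)))))))))) ⟫_ℂ = _
      rw [P.symm_symm, P.apply_symm_apply, P.apply_symm_apply, ← Q.inner_map_map,
        Q.apply_symm_apply]
      have h1 := hQ (m, l)
      have h2 := hQ (m', l)
      simp only at h1 h2
      rw [h1, h2]
      simp only [map_smul, inner_smul_left, inner_smul_right]
      have hcc : (starRingEnd ℂ) c * c = 1 := by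
        rw [← Complex.normSq_eq_conj_mul_self, Complex.normSq_eq_norm_sq, hc]
        norm_num
      rw [mul_left_comm, ← mul_assoc, hcc, one_mul]
      rfl
  · rintro ⟨U₁, ρ₁, hU₁, hprod, hM⟩
    obtain ⟨U, hU⟩ := exists_bsSys h0 h1 hf
    obtain ⟨Q, c, hc, hQ, hU₁'⟩ := bs_new (η := η) (g := fun k l => t (eA k) (eB l))
      (g' := fun k l => t (eC k) (eD l)) (f₁ := fun k l => t (eA k) (eA l)) bg bg' bf₁ hP (hcov hU)
    have hUU := bs_unique bf₁ hU₁ hU₁'
    subst hUU
    have hact := ht.product he hf bA bB (S := cj P ρ₁) (A := ρA) (B := ρB) (fun k l k' l' => by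
      have h1 := hP (k, l)
      have h2 := hP (k', l')
      simp only at h1 h2
      rw [← h1, ← h2, cjv_inner, hprod, cjs_inner, hW, hW])
    have hprod' : IsProduct e f ρA ρB (cj P ρ₁) := by
      intro k l k' l'
      rw [← ht.basis he hf k l, ← ht.basis he hf k' l', hact, ht.inner_tens he hf]
    have ppos : (cj P ρ₁).IsPositive := isProduct_isPositive he hf pA pB hprod'
    refine ⟨U, cj P ρ₁, hU, hprod', fun m m' => ?_⟩
    have hpt := ptr_all he hf ht (P369.cj_isPositive U ppos) bC bD he (ρC := ρC) (fun m m' => by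
      have h3 := hM m m'
      rw [cjs_inner, hV, hV] at h3
      refine h3.congr_fun fun l => ?_
      symm
      show ⟪t (eA m) (eA l), Q.symm (U (P (ρ₁ (P.symm (U.symm
        (Q (t (eA m') (eA l))))))))⟫_ℂ = _
      rw [← Q.inner_map_map, Q.apply_symm_apply]
      have h1 := hQ (m, l)
      have h2 := hQ (m', l)
      simp only at h1 h2
      rw [h1, h2]
      simp only [map_smul, inner_smul_left, inner_smul_right]
      have hcc : (starRingEnd ℂ) c * c = 1 := by
        rw [← Complex.normSq_eq_conj_mul_self, Complex.normSq_eq_norm_sq, hc]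
        norm_num
      rw [mul_left_comm, ← mul_assoc, hcc, one_mul]
      rfl) (e m) (e m')
    refine hpt.congr_fun fun l => ?_
    rw [ht.basis he hf, ht.basis he hf]
    rfl

end

end Vale.Agent.P369Y
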