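import Vale.Agent.P369.H326.Final
import Vale.Agent.P369.H400G.Transfer2
import Vale.Agent.P369.H400G.Energy
import Vale.Agent.P369.H400G.Ptr

/-!
P369 (helper326): [FIN] the entropy photon-number inequality when one input is Gaussian, from the
covariance of the beam splitter.
-/

set_option linter.all false

namespace Vale.Agent.P369Y.FinN

open scoped InnerProductSpace Matrix
open Vale.Agent.P369 (Conf cj cj_apply cj_inner)
open Vale.Agent.P369.Sys
open Vale.Agent.P369Y (energy_modes isState_iff photonNumber_eq transfer)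

noncomputable section

variable {n : ℕ} {H K : Type} [NormedAddCommGroup H] [InnerProductSpace ℂ H] [CompleteSpace H]
  [NormedAddCommGroup K] [InnerProductSpace ℂ K] [CompleteSpace K]

/-- the conclusion of the inequality -/
def Concl (η : ℝ) (e : Conf n → H) (f : Conf n → Conf n → K) (ρA ρB : H →L[ℂ] H) : Prop :=
  (∃ ρC : H →L[ℂ] H, IsOutput η e f ρA ρB ρC) ∧
    ∀ ρC : H →L[ℂ] H, IsOutput η e f ρA ρB ρC → IsState e ρC ∧ FiniteEnergy e ρC ∧
      η * photonNumber e ρA + (1 - η) * photonNumber e ρB ≤ photonNumber e ρC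

theorem cj_symm_inner {e e' : Conf n → H} {V : H ≃ₗᵢ[ℂ] H} (hV : ∀ k, V (e k) = e' k)
    (ρ : H →L[ℂ] H) (k l : Conf n) : ⟪e k, cj V.symm ρ (e l)⟫_ℂ = ⟪e' k, ρ (e' l)⟫_ℂ := by
  rw [cj_apply, LinearIsometryEquiv.symm_symm, ← V.inner_map_map (e k), V.apply_symm_apply, hV, hV]

theorem cj_cj_symm (V : H ≃ₗᵢ[ℂ] H) (ρ : H →L[ℂ] H) : cj V.symm (cj V ρ) = ρ := by
  ext x
  rw [cj_apply, cj_apply, LinearIsometryEquiv.symm_symm, V.symm_apply_apply, V.symm_apply_apply]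

theorem cj_symm_cj (V : H ≃ₗᵢ[ℂ] H) (ρ : H →L[ℂ] H) : cj V (cj V.symm ρ) = ρ := by
  ext x
  rw [cj_apply, cj_apply, LinearIsometryEquiv.symm_symm, V.apply_symm_apply, V.apply_symm_apply]

theorem isState_cj {e e' : Conf n → H} {V : H ≃ₗᵢ[ℂ] H} (hV : ∀ k, V (e k) = e' k)
    {ρ : H →L[ℂ] H} : IsState e (cj V.symm ρ) ↔ IsState e' ρ := by
  constructor
  · rintro ⟨h1, h2⟩
    refine ⟨?_, ?_⟩
    · have := P369.cj_isPositive V h1
      rwa [cj_symm_cj] at this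
    · refine h2.congr_fun fun k => ?_
      rw [cj_symm_inner hV]
  · rintro ⟨h1, h2⟩
    refine ⟨P369.cj_isPositive V.symm h1, ?_⟩
    refine h2.congr_fun fun k => ?_
    rw [cj_symm_inner hV]

theorem finiteEnergy_cj {e e' : Conf n → H} {V : H ≃ₗᵢ[ℂ] H} (hV : ∀ k, V (e k) = e' k)
    {ρ : H →L[ℂ] H} : FiniteEnergy e (cj V.symm ρ) ↔ FiniteEnergy e' ρ := by
  unfold FiniteEnergy
  have h : ∀ k : Conf n, (∑ j, (k j : ℝ)) * (⟪e k, cj V.symm ρ (e k)⟫_ℂ).re =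
      (∑ j, (k j : ℝ)) * (⟪e' k, ρ (e' k)⟫_ℂ).re := fun k => by rw [cj_symm_inner hV]
  simp only [h]

theorem cj_eq_conj (V : H ≃ₗᵢ[ℂ] H) (ρ : H →L[ℂ] H) : cj V ρ = V.conjStarAlgEquiv ρ := by
  ext x
  rfl

theorem continuous_cj (V : H ≃ₗᵢ[ℂ] H) :
    Continuous (V.conjStarAlgEquiv : (H →L[ℂ] H) → (H →L[ℂ] H)) := by
  have h : (V.conjStarAlgEquiv : (H →L[ℂ] H) → (H →L[ℂ] H)) =
      fun ρ => (V.toContinuousLinearEquiv : H →L[ℂ] H) ∘L ρ ∘L
        (V.symm.toContinuousLinearEquiv : H →L[ℂ] H) := by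
    funext ρ
    rfl
  rw [h]
  fun_prop

theorem negMulLogOp_cj (V : H ≃ₗᵢ[ℂ] H) {ρ : H →L[ℂ] H} (hρ : IsSelfAdjoint ρ) :
    P369.negMulLogOp (cj V ρ) = cj V (P369.negMulLogOp ρ) := by
  unfold P369.negMulLogOp
  rw [cj_eq_conj, cj_eq_conj]
  exact (StarAlgHomClass.map_cfc (R := ℝ) (S := ℝ) (V.conjStarAlgEquiv.restrictScalars ℝ)
    Real.negMulLog ρ (Real.continuous_negMulLog.continuousOn) (continuous_cj V) hρ
    (hρ.map _)).symm

theorem photonNumber_cj {e e' : Conf n → H} {V : H ≃ₗᵢ[ℂ] H} (hV : ∀ k, V (e k) = e' k)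
    {ρ : H →L[ℂ] H} (hρ : IsState e' ρ) :
    photonNumber e (cj V.symm ρ) = photonNumber e' ρ := by
  unfold photonNumber entropy
  rw [negMulLogOp_cj V.symm hρ.1.isSelfAdjoint]
  simp only [cj_symm_inner hV]

/-- lifting the inequality through equal mode changes of the two inputs -/
theorem fin_lift {η : ℝ} (h0 : 0 ≤ η) (h1 : η ≤ 1)
    {e : Conf n → H} (he : IsNumberBasis e)
    {f : Conf n → Conf n → K} (hf : IsNumberBasis fun x : Conf n × Conf n => f x.1 x.2)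
    {α β : Matrix (Fin n) (Fin n) ℂ} {γA γB : Fin n → ℂ} {eA eB : Conf n → H}
    (hA : IsModeChange α β γA e eA) (hB : IsModeChange α β γB e eB) {ρA ρB : H →L[ℂ] H}
    (sA : IsState e ρA) (sB : IsState e ρB) (EA : FiniteEnergy e ρA) (EB : FiniteEnergy e ρB)
    (hyp : ∀ (f₁ : Conf n → Conf n → K), (IsNumberBasis fun x : Conf n × Conf n => f₁ x.1 x.2) →
      ∀ ρB' : H →L[ℂ] H, IsState eA ρA → FiniteEnergy eA ρA → IsState eA ρB' →
        FiniteEnergy eA ρB' → (∀ (k : Conf n) (c : ℂ), ρB (eB k) = c • eB k →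
          ρB' (eA k) = c • eA k) → Concl η eA f₁ ρA ρB') :
    Concl η e f ρA ρB := by
  obtain ⟨f₁, eC, γC, W, V, hf₁, hC, hW, hV, hiff⟩ := transfer h0 h1 he hf hA hB sA.1 sB.1
  have hbA := hA.2.2.1
  have hbB := hB.2.2.1
  have hbC := hC.2.2.1
  have sA' : IsState eA ρA := (isState_iff he hbA ρA).1 sA
  have sB' : IsState eB ρB := (isState_iff he hbB ρB).1 sB
  have EA' : FiniteEnergy eA ρA := energy_modes he hA sA EA
  have EB' : FiniteEnergy eB ρB := energy_modes he hB sB EB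
  obtain ⟨⟨ρ', hρ'⟩, hall⟩ := hyp f₁ hf₁ (cj W.symm ρB) sA' EA' ((isState_cj hW).2 sB')
    ((finiteEnergy_cj hW).2 EB') (fun k c hc => by
      rw [cj_apply, LinearIsometryEquiv.symm_symm, hW, hc, map_smul, ← hW, W.symm_apply_apply])
  refine ⟨⟨cj V ρ', ?_⟩, fun ρC hO => ?_⟩
  · rw [hiff, cj_cj_symm]
    exact hρ'
  · obtain ⟨a1, a2, a3⟩ := hall _ ((hiff ρC).1 hO)
    have b1 : IsState eC ρC := (isState_cj hV).1 a1
    have b2 : IsState e ρC := (isState_iff he hbC ρC).2 b1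
    have b3 : FiniteEnergy eC ρC := (finiteEnergy_cj hV).1 a2
    have b4 : FiniteEnergy e ρC := energy_modes hbC (Vale.Agent.P369Y.IsModeChange.inv he hC) b1 b3
    refine ⟨b2, b4, ?_⟩
    rw [photonNumber_cj hV b1, photonNumber_cj hW sB', ← photonNumber_eq he hbA sA, ← photonNumber_eq he hbB sB,
      ← photonNumber_eq he hbC b2] at a3
    exact a3

/-- Gaussian second input -/
theorem fin_gaussian_second (hn : 1 ≤ n) (hhot : P369N.HotAll n) {η : ℝ} (h0 : 0 ≤ η) (h1 : η ≤ 1)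
    {e : Conf n → H} (he : IsNumberBasis e)
    {f : Conf n → Conf n → K} (hf : IsNumberBasis fun x : Conf n × Conf n => f x.1 x.2)
    {ρA ρB : H →L[ℂ] H}
    (sA : IsState e ρA) (sB : IsState e ρB) (EA : FiniteEnergy e ρA) (EB : FiniteEnergy e ρB)
    (hG : IsGaussian e ρB) : Concl η e f ρA ρB := by
  obtain ⟨α, β, γ, eB, s, hB, hs, hth⟩ := hG
  refine fin_lift h0 h1 he hf hB hB sA sB EA EB ?_
  intro f₁ hf₁ ρB' sA' EA' sB' EB' hrel
  exact P369N.epni_thermal_second hn hhot h0 h1 eB hB.2.2.1 f₁ hf₁ ρA ρB' sA' EA' hs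
    (fun k => hrel k _ (hth k))

/-- Gaussian first input -/
theorem fin_gaussian_first (hn : 1 ≤ n) (hhot : P369N.HotAll n) {η : ℝ} (h0 : 0 ≤ η) (h1 : η ≤ 1)
    {e : Conf n → H} (he : IsNumberBasis e)
    {f : Conf n → Conf n → K} (hf : IsNumberBasis fun x : Conf n × Conf n => f x.1 x.2)
    {ρA ρB : H →L[ℂ] H}
    (sA : IsState e ρA) (sB : IsState e ρB) (EA : FiniteEnergy e ρA) (EB : FiniteEnergy e ρB)
    (hG : IsGaussian e ρA) : Concl η e f ρA ρB := by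
  obtain ⟨⟨ρC, hC⟩, hall⟩ := fin_gaussian_second hn hhot (η := 1 - η) (by linarith)
    (by linarith) he hf sB sA EB EA hG
  refine ⟨⟨ρC, ?_⟩, fun ρ' h' => ?_⟩
  · have h := P369N.isOutput_swap hf hC
    rwa [show 1 - (1 - η) = η by ring] at h
  · obtain ⟨a1, a2, a3⟩ := hall ρ' (P369N.isOutput_swap hf h')
    refine ⟨a1, a2, ?_⟩
    rw [show 1 - (1 - η) = η by ring] at a3
    linarith

/-- inputs diagonal in number states of modes with the same linear part -/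
theorem fin_diagonal (hn : 1 ≤ n) {η : ℝ} (h0 : 0 ≤ η) (h1 : η ≤ 1)
    {e : Conf n → H} (he : IsNumberBasis e)
    {f : Conf n → Conf n → K} (hf : IsNumberBasis fun x : Conf n × Conf n => f x.1 x.2)
    {α β : Matrix (Fin n) (Fin n) ℂ} {γA γB : Fin n → ℂ} {eA eB : Conf n → H}
    (hA : IsModeChange α β γA e eA) (hB : IsModeChange α β γB e eB) {ρA ρB : H →L[ℂ] H}
    (sA : IsState e ρA) (sB : IsState e ρB) (EA : FiniteEnergy e ρA) (EB : FiniteEnergy e ρB)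
    (dA : IsNumberDiagonal eA ρA) (dB : IsNumberDiagonal eB ρB) : Concl η e f ρA ρB := by
  refine fin_lift h0 h1 he hf hA hB sA sB EA EB ?_
  intro f₁ hf₁ ρB' sA' EA' sB' EB' hrel
  obtain ⟨p, hp⟩ := dB
  exact P369.epni_number hn h0 h1 eA hA.2.2.1 f₁ hf₁ ρA ρB' sA' sB' EA' EB' dA
    ⟨p, fun k => hrel k _ (hp k)⟩

end

end Vale.Agent.P369Y.FinN
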