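import Vale.Agent.P369.H400G.Tens

set_option linter.all false

/-!
P369 (helper400): ladder operators, adjointness, Bogoliubov transformations.
-/

namespace Vale.Agent.P369Y

open scoped InnerProductSpace Matrix
open Matrix
open Vale.Agent.P369 (Conf up down)
open Vale.Agent.P369.Sys

noncomputable section

section ladder

variable {ι : Type} {K : Type} [NormedAddCommGroup K] [InnerProductSpace ℂ K] [CompleteSpace K]

/-- adjointness of annihilation and creation -/
theorem adj_gen {b : ι → K} (hb : IsNumberBasis b) {u : ι → ι} (hu : Function.Injective u)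
    {A C : ι → K} {c : ι → ℝ} (hC : ∀ x, C x = (c x : ℂ) • b (u x))
    (hA : ∀ x, A (u x) = (c x : ℂ) • b x) (hA0 : ∀ y, y ∉ Set.range u → A y = 0)
    {ψ φ ψ' φ' : K} (h1 : ∀ x, ⟪C x, ψ⟫_ℂ = ⟪b x, φ⟫_ℂ) (h2 : ∀ x, ⟪A x, ψ'⟫_ℂ = ⟪b x, φ'⟫_ℂ) :
    ⟪φ', ψ⟫_ℂ = ⟪ψ', φ⟫_ℂ := by
  have p1 := parseval hb φ' ψ
  have p2 := parseval hb ψ' φ
  rw [← hu.hasSum_iff] at p1
  · refine p1.unique (p2.congr_fun fun x => ?_)
    have e1 : ⟪φ', b (u x)⟫_ℂ = (c x : ℂ) * ⟪ψ', b x⟫_ℂ := by
      rw [← inner_conj_symm, ← h2, hA, inner_smul_left, map_mul, inner_conj_symm,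
        Complex.conj_conj]
    have e2 : ⟪b x, φ⟫_ℂ = (c x : ℂ) * ⟪b (u x), ψ⟫_ℂ := by
      rw [← h1, hC, inner_smul_left, Complex.conj_ofReal]
    simp only [Function.comp]
    rw [e1, e2]
    ring
  · intro y hy
    rw [← inner_conj_symm, ← h2, hA0 y hy, inner_zero_left, map_zero, zero_mul]

end ladder

variable {n : ℕ} {H K : Type} [NormedAddCommGroup H] [InnerProductSpace ℂ H] [CompleteSpace H]
  [NormedAddCommGroup K] [InnerProductSpace ℂ K] [CompleteSpace K]

theorem down_up (x : Conf n) (m : Fin n) : down (up x m) m = x := by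
  funext i
  unfold down up
  by_cases h : i = m
  · subst h; simp
  · simp [Function.update_of_ne h]

theorem up_at (x : Conf n) (m : Fin n) : up x m m = x m + 1 := by
  unfold up; simp

theorem up_down' {x : Conf n} {m : Fin n} (h : x m ≠ 0) : up (down x m) m = x := by
  funext i
  unfold down up
  by_cases h' : i = m
  · subst h'
    simp only [Function.update_self]
    omega
  · simp [Function.update_of_ne h']

theorem up_inj (m : Fin n) : Function.Injective fun x : Conf n => up x m := fun x y h => by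
  have := congrArg (fun z => down z m) h
  simpa only [down_up] using this

theorem not_range_up {y : Conf n} {m : Fin n} (h : y ∉ Set.range fun x : Conf n => up x m) :
    y m = 0 := by
  by_contra h'
  exact h ⟨down y m, up_down' h'⟩

/-- annihilation (`true`) or creation (`false`) operators on number states -/
def op1 (e : Conf n → H) (τ : Bool) (m : Fin n) (x : Conf n) : H :=
  if τ then ann e m x else cre e m x

theorem adj_H {e : Conf n → H} (he : IsNumberBasis e) {m : Fin n} {ψ φ ψ' φ' : H}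
    (h1 : ∀ x, ⟪cre e m x, ψ⟫_ℂ = ⟪e x, φ⟫_ℂ) (h2 : ∀ x, ⟪ann e m x, ψ'⟫_ℂ = ⟪e x, φ'⟫_ℂ) :
    ⟪φ', ψ⟫_ℂ = ⟪ψ', φ⟫_ℂ := by
  refine adj_gen he (up_inj m) (A := ann e m) (C := cre e m)
    (c := fun x => Real.sqrt ((x m : ℝ) + 1)) (fun x => rfl) (fun x => ?_) (fun y hy => ?_) h1 h2
  · unfold ann
    rw [down_up, up_at]
    push_cast
    rfl
  · unfold ann
    rw [not_range_up hy]
    simp

/-! ### Bogoliubov relations -/

variable {α β : Matrix (Fin n) (Fin n) ℂ}

/-- left inverse relations -/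
theorem bog_inv (h1 : α * αᴴ - β * βᴴ = 1) (h2 : α * βᵀ = β * αᵀ) :
    αᴴ * α - βᵀ * β.map star = 1 ∧ αᴴ * β - βᵀ * α.map star = 0 ∧
    αᵀ * α.map star - βᴴ * β = 1 ∧ αᵀ * β.map star - βᴴ * α = 0 := by
  have t1 : (α.map star)ᵀ = αᴴ := rfl
  have c1 : α.map star * αᵀ - β.map star * βᵀ = 1 := by
    have := congrArg (fun M => M.map star) h1
    have e1 : (α * αᴴ - β * βᴴ).map star = α.map star * αᵀ - β.map star * βᵀ := by
      ext i j
      simp only [Matrix.map_apply, Matrix.sub_apply, Matrix.mul_apply, star_sub, star_sum,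
        star_mul', conjTranspose_apply, star_star, transpose_apply]
    have e2 : (1 : Matrix (Fin n) (Fin n) ℂ).map star = 1 := by
      ext i j
      simp only [Matrix.map_apply, Matrix.one_apply]
      split_ifs <;> simp
    rw [e1, e2] at this
    exact this
  have c2 : α.map star * βᴴ = β.map star * αᴴ := by
    have := congrArg (fun M => M.map star) h2
    have e1 : (α * βᵀ).map star = α.map star * βᴴ := by
      ext i j
      simp only [Matrix.map_apply, Matrix.mul_apply, star_sum, star_mul', conjTranspose_apply,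
        transpose_apply]
    have e2 : (β * αᵀ).map star = β.map star * αᴴ := by
      ext i j
      simp only [Matrix.map_apply, Matrix.mul_apply, star_sum, star_mul', conjTranspose_apply,
        transpose_apply]
    rw [e1, e2] at this
    exact this
  have hS : Matrix.fromBlocks α β (β.map star) (α.map star) *
      Matrix.fromBlocks αᴴ (-βᵀ) (-βᴴ) αᵀ = 1 := by
    rw [Matrix.fromBlocks_multiply, ← Matrix.fromBlocks_one]
    congr 1
    · rw [mul_neg, ← sub_eq_add_neg, h1]
    · rw [mul_neg, h2]; simp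
    · rw [mul_neg, c2]; simp
    · rw [mul_neg, neg_add_eq_sub, c1]
  have hS' := mul_eq_one_comm.1 hS
  rw [Matrix.fromBlocks_multiply, ← Matrix.fromBlocks_one, Matrix.fromBlocks_inj] at hS'
  obtain ⟨a1, a2, a3, a4⟩ := hS'
  refine ⟨?_, ?_, ?_, ?_⟩
  · rw [← a1]; simp [sub_eq_add_neg]
  · rw [← a2]; simp [sub_eq_add_neg]
  · rw [← a4]
    rw [neg_mul]
    abel
  · rw [← a3]
    rw [neg_mul]
    abel

end

end Vale.Agent.P369Y
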