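import Vale.Agent.P369.H400G.Modes

set_option linter.all false

/-!
P369 (helper400): the old modes on the new number states; inverse and displaced mode changes.
-/

namespace Vale.Agent.P369Y

open scoped InnerProductSpace Matrix
open Matrix
open Vale.Agent.P369 (Conf up down)
open Vale.Agent.P369.Sys

noncomputable section

variable {n : ℕ} {H K : Type} [NormedAddCommGroup H] [InnerProductSpace ℂ H] [CompleteSpace H]
  [NormedAddCommGroup K] [InnerProductSpace ℂ K] [CompleteSpace K]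
  {α β : Matrix (Fin n) (Fin n) ℂ} {γ : Fin n → ℂ} {e e' : Conf n → H}

/-- `a_m e'_k` -/
def Ea (α β : Matrix (Fin n) (Fin n) ℂ) (γ : Fin n → ℂ) (e' : Conf n → H) (m : Fin n)
    (k : Conf n) : H :=
  ∑ i, (star (α i m) • (ann e' i k - γ i • e' k) - β i m • (cre e' i k - star (γ i) • e' k))

/-- `a_m† e'_k` -/
def Ec (α β : Matrix (Fin n) (Fin n) ℂ) (γ : Fin n → ℂ) (e' : Conf n → H) (m : Fin n)
    (k : Conf n) : H :=
  ∑ i, (α i m • (cre e' i k - star (γ i) • e' k) - star (β i m) • (ann e' i k - γ i • e' k))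

theorem inner_Ea (h : IsModeChange α β γ e e') (m : Fin n) (k x : Conf n) :
    ⟪cre e m x, e' k⟫_ℂ = ⟪e x, Ea α β γ e' m k⟫_ℂ := by
  obtain ⟨b1, b2, hb', hr⟩ := h
  obtain ⟨r1, r2, r3, r4⟩ := bog_inv b1 b2
  set C : Fin n → ℂ := fun l => ⟪cre e l x, e' k⟫_ℂ with hC
  set A : Fin n → ℂ := fun l => ⟪ann e l x, e' k⟫_ℂ with hA
  have ea : ∀ i, ⟪e x, ann e' i k⟫_ℂ - γ i * ⟪e x, e' k⟫_ℂ = (α *ᵥ C + β *ᵥ A) i := by
    intro i
    rw [(hr i x k).1, add_sub_cancel_right, Pi.add_apply, Matrix.mulVec, Matrix.mulVec,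
      dotProduct, dotProduct, ← Finset.sum_add_distrib]
  have ec : ∀ i, ⟪e x, cre e' i k⟫_ℂ - star (γ i) * ⟪e x, e' k⟫_ℂ =
      (α.map star *ᵥ A + β.map star *ᵥ C) i := by
    intro i
    rw [(hr i x k).2, add_sub_cancel_right, Pi.add_apply, Matrix.mulVec, Matrix.mulVec,
      dotProduct, dotProduct, ← Finset.sum_add_distrib]
    rfl
  have e1 : ⟪e x, Ea α β γ e' m k⟫_ℂ =
      (αᴴ *ᵥ (α *ᵥ C + β *ᵥ A) - βᵀ *ᵥ (α.map star *ᵥ A + β.map star *ᵥ C)) m := by
    unfold Ea
    rw [inner_sum, Pi.sub_apply, Matrix.mulVec, Matrix.mulVec, dotProduct, dotProduct,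
      ← Finset.sum_sub_distrib]
    refine Finset.sum_congr rfl fun i _ => ?_
    rw [inner_sub_right, inner_smul_right, inner_smul_right, inner_sub_right, inner_sub_right,
      inner_smul_right, inner_smul_right, ea, ec]
    rfl
  have e2 : αᴴ *ᵥ (α *ᵥ C + β *ᵥ A) - βᵀ *ᵥ (α.map star *ᵥ A + β.map star *ᵥ C) =
      (αᴴ * α - βᵀ * β.map star) *ᵥ C + (αᴴ * β - βᵀ * α.map star) *ᵥ A := by
    simp only [Matrix.mulVec_add, Matrix.mulVec_mulVec, Matrix.sub_mulVec]
    abel
  rw [e1, e2, r1, r2, Matrix.one_mulVec, Matrix.zero_mulVec, add_zero]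

theorem inner_Ec (h : IsModeChange α β γ e e') (m : Fin n) (k x : Conf n) :
    ⟪ann e m x, e' k⟫_ℂ = ⟪e x, Ec α β γ e' m k⟫_ℂ := by
  obtain ⟨b1, b2, hb', hr⟩ := h
  obtain ⟨r1, r2, r3, r4⟩ := bog_inv b1 b2
  set C : Fin n → ℂ := fun l => ⟪cre e l x, e' k⟫_ℂ with hC
  set A : Fin n → ℂ := fun l => ⟪ann e l x, e' k⟫_ℂ with hA
  have ea : ∀ i, ⟪e x, ann e' i k⟫_ℂ - γ i * ⟪e x, e' k⟫_ℂ = (α *ᵥ C + β *ᵥ A) i := by
    intro i
    rw [(hr i x k).1, add_sub_cancel_right, Pi.add_apply, Matrix.mulVec, Matrix.mulVec,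
      dotProduct, dotProduct, ← Finset.sum_add_distrib]
  have ec : ∀ i, ⟪e x, cre e' i k⟫_ℂ - star (γ i) * ⟪e x, e' k⟫_ℂ =
      (α.map star *ᵥ A + β.map star *ᵥ C) i := by
    intro i
    rw [(hr i x k).2, add_sub_cancel_right, Pi.add_apply, Matrix.mulVec, Matrix.mulVec,
      dotProduct, dotProduct, ← Finset.sum_add_distrib]
    rfl
  have e1 : ⟪e x, Ec α β γ e' m k⟫_ℂ =
      (αᵀ *ᵥ (α.map star *ᵥ A + β.map star *ᵥ C) - βᴴ *ᵥ (α *ᵥ C + β *ᵥ A)) m := by
    unfold Ec
    rw [inner_sum, Pi.sub_apply, Matrix.mulVec, Matrix.mulVec, dotProduct, dotProduct,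
      ← Finset.sum_sub_distrib]
    refine Finset.sum_congr rfl fun i _ => ?_
    rw [inner_sub_right, inner_smul_right, inner_smul_right, inner_sub_right, inner_sub_right,
      inner_smul_right, inner_smul_right, ea, ec]
    rfl
  have e2 : αᵀ *ᵥ (α.map star *ᵥ A + β.map star *ᵥ C) - βᴴ *ᵥ (α *ᵥ C + β *ᵥ A) =
      (αᵀ * α.map star - βᴴ * β) *ᵥ A + (αᵀ * β.map star - βᴴ * α) *ᵥ C := by
    simp only [Matrix.mulVec_add, Matrix.mulVec_mulVec, Matrix.sub_mulVec]
    abel
  rw [e1, e2, r3, r4, Matrix.one_mulVec, Matrix.zero_mulVec, add_zero]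

/-- the new annihilation operators on the new number states, in terms of the old modes -/
theorem ann_eq (he : IsNumberBasis e) (h : IsModeChange α β γ e e') (i : Fin n) (k : Conf n) :
    ann e' i k = ∑ m, (α i m • Ea α β γ e' m k + β i m • Ec α β γ e' m k) + γ i • e' k := by
  apply ext_nb he
  intro x
  rw [(h.2.2.2 i x k).1, inner_add_right, inner_sum, inner_smul_right]
  congr 1
  refine Finset.sum_congr rfl fun m _ => ?_
  rw [inner_add_right, inner_smul_right, inner_smul_right, inner_Ea h, inner_Ec h]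

theorem cre_eq (he : IsNumberBasis e) (h : IsModeChange α β γ e e') (i : Fin n) (k : Conf n) :
    cre e' i k = ∑ m, (star (α i m) • Ec α β γ e' m k + star (β i m) • Ea α β γ e' m k) +
      star (γ i) • e' k := by
  apply ext_nb he
  intro x
  rw [(h.2.2.2 i x k).2, inner_add_right, inner_sum, inner_smul_right]
  congr 1
  refine Finset.sum_congr rfl fun m _ => ?_
  rw [inner_add_right, inner_smul_right, inner_smul_right, inner_Ea h, inner_Ec h]

/-- the inverse mode change -/
theorem IsModeChange.inv (he : IsNumberBasis e) (h : IsModeChange α β γ e e') :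
    IsModeChange αᴴ (-βᵀ) (fun m => -∑ i, (star (α i m) * γ i - β i m * star (γ i))) e' e := by
  obtain ⟨r1, r2, r3, r4⟩ := bog_inv h.1 h.2.1
  have m1 : (-βᵀ)ᴴ = -(β.map star) := by
    rw [Matrix.conjTranspose_neg]
    rfl
  have m2 : (αᴴ)ᵀ = α.map star := rfl
  have conj_sum : ∀ (s : Finset (Fin n)) (g : Fin n → ℂ), star (∑ i ∈ s, g i) = ∑ i ∈ s, star (g i) :=
    fun s g => star_sum s g
  refine ⟨?_, ?_, he, fun m y x => ⟨?_, ?_⟩⟩
  · rw [m1, Matrix.conjTranspose_conjTranspose, neg_mul_neg, r1]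
  · rw [Matrix.transpose_neg, Matrix.transpose_transpose, mul_neg, neg_mul, m2]
    rw [sub_eq_zero] at r2
    rw [r2]
  · rw [← inner_conj_symm, inner_Ec h, Ec, inner_sum, map_sum, neg_mul, Finset.sum_mul,
      ← sub_eq_add_neg, ← Finset.sum_sub_distrib]
    refine Finset.sum_congr rfl fun i _ => ?_
    rw [inner_sub_right, inner_smul_right, inner_smul_right, inner_sub_right, inner_sub_right,
      inner_smul_right, inner_smul_right, map_sub, map_mul, map_mul, map_sub, map_sub, map_mul,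
      map_mul, inner_conj_symm, inner_conj_symm, inner_conj_symm]
    simp only [Matrix.conjTranspose_apply, Matrix.neg_apply, Matrix.transpose_apply,
      RCLike.star_def, Complex.conj_conj]
    ring
  · rw [← inner_conj_symm, inner_Ea h, Ea, inner_sum, map_sum, star_neg, conj_sum, neg_mul,
      Finset.sum_mul, ← sub_eq_add_neg, ← Finset.sum_sub_distrib]
    refine Finset.sum_congr rfl fun i _ => ?_
    rw [inner_sub_right, inner_smul_right, inner_smul_right, inner_sub_right, inner_sub_right,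
      inner_smul_right, inner_smul_right, map_sub, map_mul, map_mul, map_sub, map_sub, map_mul,
      map_mul, inner_conj_symm, inner_conj_symm, inner_conj_symm]
    simp only [Matrix.conjTranspose_apply, Matrix.neg_apply, Matrix.transpose_apply,
      RCLike.star_def, Complex.conj_conj, star_sub, star_mul', star_neg, map_neg, map_sub, map_mul]
    ring

/-- displacing the new modes -/
theorem IsModeChange.disp (he : IsNumberBasis e) (h : IsModeChange α β γ e e') {z : Fin n → ℂ}
    {d : Conf n → H} (hd : IsNumberBasis d)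
    (hz : ∀ i x k, ⟪e' x, ann d i k⟫_ℂ = ⟪cre e' i x, d k⟫_ℂ + z i * ⟪e' x, d k⟫_ℂ ∧
      ⟪e' x, cre d i k⟫_ℂ = ⟪ann e' i x, d k⟫_ℂ + star (z i) * ⟪e' x, d k⟫_ℂ) :
    IsModeChange α β (γ + z) e d := by
  refine ⟨h.1, h.2.1, hd, fun i x k => ⟨?_, ?_⟩⟩
  · have q1 : ∀ y, ⟪cre e' i y, d k⟫_ℂ = ⟪e' y, ann d i k - z i • d k⟫_ℂ := by
      intro y
      rw [inner_sub_right, inner_smul_right, (hz i y k).1]
      ring
    have q2 : ∀ y, ⟪ann e' i y, e x⟫_ℂ = ⟪e' y, ∑ m, (star (α i m) • cre e m x +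
        star (β i m) • ann e m x) + star (γ i) • e x⟫_ℂ := by
      intro y
      rw [← inner_conj_symm, (h.2.2.2 i x y).1, inner_add_right, inner_sum, map_add, map_sum,
        map_mul, inner_conj_symm, inner_smul_right]
      congr 1
      refine Finset.sum_congr rfl fun m _ => ?_
      rw [map_add, map_mul, map_mul, inner_conj_symm, inner_conj_symm, inner_add_right,
        inner_smul_right, inner_smul_right]
      rfl
    have q3 := adj_H h.2.2.1 q1 q2
    rw [inner_sub_right, inner_smul_right] at q3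
    have q4 : ⟪∑ m, (star (α i m) • cre e m x + star (β i m) • ann e m x) + star (γ i) • e x,
        d k⟫_ℂ = ∑ m, (α i m * ⟪cre e m x, d k⟫_ℂ + β i m * ⟪ann e m x, d k⟫_ℂ) +
          γ i * ⟪e x, d k⟫_ℂ := by
      rw [inner_add_left, sum_inner, inner_smul_left]
      simp only [inner_add_left, inner_smul_left, RCLike.star_def, Complex.conj_conj]
    rw [q4] at q3
    rw [Pi.add_apply]
    linear_combination -q3
  · have q1 : ∀ y, ⟪ann e' i y, d k⟫_ℂ = ⟪e' y, cre d i k - star (z i) • d k⟫_ℂ := by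
      intro y
      rw [inner_sub_right, inner_smul_right, (hz i y k).2]
      ring
    have q2 : ∀ y, ⟪cre e' i y, e x⟫_ℂ = ⟪e' y, ∑ m, (α i m • ann e m x +
        β i m • cre e m x) + γ i • e x⟫_ℂ := by
      intro y
      rw [← inner_conj_symm, (h.2.2.2 i x y).2, inner_add_right, inner_sum, map_add, map_sum,
        map_mul, inner_conj_symm, inner_smul_right]
      simp only [RCLike.star_def, Complex.conj_conj]
      congr 1
      refine Finset.sum_congr rfl fun m _ => ?_
      rw [map_add, map_mul, map_mul, inner_conj_symm, inner_conj_symm, inner_add_right,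
        inner_smul_right, inner_smul_right, Complex.conj_conj, Complex.conj_conj]
    have q3 := adj_H h.2.2.1 q2 q1
    have q3' := congrArg (starRingEnd ℂ) q3
    rw [inner_conj_symm, inner_conj_symm, inner_sub_right, inner_smul_right] at q3'
    have q4 : ⟪∑ m, (α i m • ann e m x + β i m • cre e m x) + γ i • e x,
        d k⟫_ℂ = ∑ m, (star (α i m) * ⟪ann e m x, d k⟫_ℂ + star (β i m) * ⟪cre e m x, d k⟫_ℂ) +
          star (γ i) * ⟪e x, d k⟫_ℂ := by
      rw [inner_add_left, sum_inner, inner_smul_left]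
      simp only [inner_add_left, inner_smul_left, RCLike.star_def]
    rw [q4] at q3'
    rw [Pi.add_apply, star_add]
    linear_combination q3'

end

end Vale.Agent.P369Y
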