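import Vale.Agent.P369.H400G.Disp

/-!
P369 (helper903): sanity checks of the definitions `IsModeChange` and `IsGaussian`
(they are satisfied by the identity, by all displacements, by all changes of phase, and the
displaced thermal states, in particular the vacuum and the coherent states, are Gaussian).
-/

set_option linter.all false

namespace Vale.Agent.P369Y

open scoped ComplexConjugate InnerProductSpace Matrix
open Vale.Agent.P369 (Conf up down)
open Vale.Agent.P369.Sys

noncomputable section

variable {n : ℕ} {H : Type} [NormedAddCommGroup H] [InnerProductSpace ℂ H]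

/-- the identity -/
theorem isModeChange_refl {e : Conf n → H} (he : IsNumberBasis e) :
    IsModeChange 1 0 0 e e := by
  classical
  have key : ∀ x k : Conf n, ⟪e x, e k⟫_ℂ = if x = k then 1 else 0 := orthonormal_iff_ite.1 he.1
  have hud : ∀ (i : Fin n) (x k : Conf n), (Real.sqrt (k i) : ℂ) * ⟪e x, e (down k i)⟫_ℂ =
      (Real.sqrt (x i + 1) : ℂ) * ⟪e (up x i), e k⟫_ℂ := by
    intro i x k
    rw [key, key]
    by_cases hk : k i = 0
    · have h1 : up x i ≠ k := by
        intro h
        have := congrFun h i
        simp only [up, Function.update_self] at this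
        omega
      rw [hk, if_neg h1]
      simp
    · by_cases h : up x i = k
      · subst h
        have h2 : down (up x i) i = x := by
          funext j
          by_cases hj : j = i
          · subst hj; simp [up, down]
          · simp [up, down, Function.update_of_ne hj]
        have h3 : (up x i) i = x i + 1 := by simp [up]
        rw [h2, h3]
        simp
      · have h2 : x ≠ down k i := by
          intro hx
          apply h
          subst hx
          funext j
          by_cases hj : j = i
          · subst hj
            simp only [up, down, Function.update_self]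
            omega
          · simp [up, down, Function.update_of_ne hj]
        rw [if_neg h, if_neg h2]
        simp
  refine ⟨by simp, by simp, he, fun i x k => ⟨?_, ?_⟩⟩
  · simp only [Matrix.one_apply, Matrix.zero_apply, Pi.zero_apply, zero_mul, add_zero, ite_mul,
      one_mul, Finset.sum_ite_eq, Finset.mem_univ, if_true]
    unfold ann cre
    rw [inner_smul_right, inner_smul_left, Complex.conj_ofReal]
    exact hud i x k
  · have h1 := hud i k x
    have h2 : ∀ a b : Conf n, ⟪e a, e b⟫_ℂ = ⟪e b, e a⟫_ℂ := by
      intro a b
      rw [key, key]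
      by_cases h : a = b
      · rw [if_pos h, if_pos h.symm]
      · rw [if_neg h, if_neg (Ne.symm h)]
    simp only [Matrix.one_apply, Matrix.zero_apply, Pi.zero_apply, star_zero, zero_mul, add_zero,
      apply_ite star, star_one, ite_mul, one_mul, Finset.sum_ite_eq, Finset.mem_univ, if_true]
    unfold ann cre
    rw [inner_smul_right, inner_smul_left, Complex.conj_ofReal, h2 x, h2 _ k]
    exact h1.symm

/-- all displacements -/
theorem exists_isModeChange_disp [CompleteSpace H] {e : Conf n → H} (he : IsNumberBasis e)
    (z : Fin n → ℂ) : ∃ d : Conf n → H, IsModeChange 1 0 z e d := by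
  classical
  obtain ⟨d, hd, h⟩ := exists_disp he z
  refine ⟨d, by simp, by simp, hd, fun i x k => ⟨?_, ?_⟩⟩
  · simp only [Matrix.one_apply, Matrix.zero_apply, zero_mul, add_zero, ite_mul,
      one_mul, Finset.sum_ite_eq, Finset.mem_univ, if_true]
    exact (h i x k).1
  · simp only [Matrix.one_apply, Matrix.zero_apply, star_zero, zero_mul, add_zero,
      apply_ite star, star_one, ite_mul, one_mul, Finset.sum_ite_eq, Finset.mem_univ, if_true]
    exact (h i x k).2

/-- product thermal states are Gaussian -/
theorem isGaussian_thermal {e : Conf n → H} (he : IsNumberBasis e) {s : Fin n → ℝ}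
    (hs : ∀ j, 0 ≤ s j) {ρ : H →L[ℂ] H}
    (h : ∀ k, ρ (e k) = ((∏ j, s j ^ k j / (s j + 1) ^ (k j + 1) : ℝ) : ℂ) • e k) :
    IsGaussian e ρ :=
  ⟨1, 0, 0, e, s, isModeChange_refl he, hs, h⟩

/-- every coherent state is Gaussian: for every `z` there is a unit vector `v` with
`(a_i + z_i) v = 0`, and `|v⟩⟨v|` is Gaussian -/
theorem exists_isGaussian_coherent [CompleteSpace H] {e : Conf n → H} (he : IsNumberBasis e)
    (z : Fin n → ℂ) : ∃ v : H, ‖v‖ = 1 ∧
      (∀ (i : Fin n) (x : Conf n), ⟪cre e i x, v⟫_ℂ + z i * ⟪e x, v⟫_ℂ = 0) ∧
      IsGaussian e (InnerProductSpace.rankOne ℂ v v) := by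
  classical
  obtain ⟨d, hd, h⟩ := exists_disp he z
  obtain ⟨d', hd'⟩ : ∃ d' : Conf n → H, d' = d := ⟨d, rfl⟩
  have hm : IsModeChange 1 0 z e d := by
    refine ⟨by simp, by simp, hd, fun i x k => ⟨?_, ?_⟩⟩
    · simp only [Matrix.one_apply, Matrix.zero_apply, zero_mul, add_zero, ite_mul,
        one_mul, Finset.sum_ite_eq, Finset.mem_univ, if_true]
      exact (h i x k).1
    · simp only [Matrix.one_apply, Matrix.zero_apply, star_zero, zero_mul, add_zero,
        apply_ite star, star_one, ite_mul, one_mul, Finset.sum_ite_eq, Finset.mem_univ, if_true]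
      exact (h i x k).2
  refine ⟨d 0, hd.1.1 0, fun i x => ?_, 1, 0, z, d, 0, hm, fun j => le_rfl, fun k => ?_⟩
  · rw [← (h i x 0).1]
    unfold ann
    simp
  · rw [InnerProductSpace.rankOne_apply, orthonormal_iff_ite.1 hd.1]
    by_cases hk : (0 : Conf n) = k
    · subst hk
      simp
    · rw [if_neg hk, zero_smul]
      obtain ⟨j, hj⟩ := Function.ne_iff.1 hk
      have h1 : ∏ j, (0 : Fin n → ℝ) j ^ k j / ((0 : Fin n → ℝ) j + 1) ^ (k j + 1) = 0 := by
        refine Finset.prod_eq_zero (Finset.mem_univ j) ?_
        have : k j ≠ 0 := fun h => hj (by simp [h])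
        simp [this]
      rw [h1]
      simp

end

end Vale.Agent.P369Y
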