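import Vale.Agent.P369.H400G.Defs

set_option linter.all false

/-!
P369 (helper400): number bases, tensor map, product operators.
-/

namespace Vale.Agent.P369Y

open scoped InnerProductSpace
open Vale.Agent.P369 (Conf up down)
open Vale.Agent.P369.Sys

noncomputable section

section basis

variable {ι : Type} {H : Type} [NormedAddCommGroup H] [InnerProductSpace ℂ H] [CompleteSpace H]

/-- a number basis as a Hilbert basis -/
def hb {e : ι → H} (he : IsNumberBasis e) : HilbertBasis ι ℂ H :=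
  HilbertBasis.mk he.1 (by
    rw [top_le_iff]
    exact (Submodule.dense_iff_topologicalClosure_eq_top).1 he.2)

theorem hb_apply {e : ι → H} (he : IsNumberBasis e) (i : ι) : hb he i = e i := by
  unfold hb
  rw [HilbertBasis.coe_mk]

theorem ext_nb {e : ι → H} (he : IsNumberBasis e) {v w : H} (h : ∀ i, ⟪e i, v⟫_ℂ = ⟪e i, w⟫_ℂ) :
    v = w := by
  apply (hb he).repr.injective
  ext i
  rw [(hb he).repr_apply_apply, (hb he).repr_apply_apply, hb_apply, h]

theorem parseval {e : ι → H} (he : IsNumberBasis e) (v w : H) :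
    HasSum (fun i => ⟪v, e i⟫_ℂ * ⟪e i, w⟫_ℂ) ⟪v, w⟫_ℂ := by
  have := (hb he).hasSum_inner_mul_inner v w
  simpa only [hb_apply] using this

theorem parseval_sq {e : ι → H} (he : IsNumberBasis e) (v : H) :
    HasSum (fun i => ‖⟪e i, v⟫_ℂ‖ ^ 2) (‖v‖ ^ 2) := by
  have h := parseval he v v
  have h2 := Complex.hasSum_re h
  have e1 : (⟪v, v⟫_ℂ).re = ‖v‖ ^ 2 := by
    rw [inner_self_eq_norm_sq_to_K]
    norm_cast
  rw [e1] at h2
  refine h2.congr_fun fun i => ?_
  rw [← inner_conj_symm v (e i), ← Complex.normSq_eq_conj_mul_self, Complex.ofReal_re,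
    Complex.normSq_eq_norm_sq]

theorem exists_vec {e : ι → H} (he : IsNumberBasis e) (c : ι → ℂ)
    (hc : Summable fun i => ‖c i‖ ^ 2) : ∃ v : H, ∀ i, ⟪e i, v⟫_ℂ = c i := by
  have hm : Memℓp c 2 := by
    rw [memℓp_gen_iff (by norm_num)]
    simpa using hc
  refine ⟨(hb he).repr.symm ⟨c, hm⟩, fun i => ?_⟩
  rw [← hb_apply he i, ← (hb he).repr_apply_apply, LinearIsometryEquiv.apply_symm_apply]

theorem clm_ext {E : Type} [NormedAddCommGroup E] [NormedSpace ℂ E] {e : ι → H}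
    (he : IsNumberBasis e) {A B : H →L[ℂ] E} (h : ∀ i, A (e i) = B (e i)) : A = B := by
  apply ContinuousLinearMap.ext_on he.2
  rintro _ ⟨i, rfl⟩
  exact h i

theorem isNumberBasis_of_orth {e : ι → H} (he : Orthonormal ℂ e)
    (h : ∀ v : H, (∀ i, ⟪e i, v⟫_ℂ = 0) → v = 0) : IsNumberBasis e := by
  refine ⟨he, ?_⟩
  rw [Submodule.dense_iff_topologicalClosure_eq_top, Submodule.topologicalClosure_eq_top_iff,
    Submodule.eq_bot_iff]
  intro v hv
  apply h
  intro i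
  rw [Submodule.mem_orthogonal] at hv
  exact hv _ (Submodule.subset_span ⟨i, rfl⟩)

end basis

variable {n : ℕ} {H K : Type} [NormedAddCommGroup H] [InnerProductSpace ℂ H] [CompleteSpace H]
  [NormedAddCommGroup K] [InnerProductSpace ℂ K] [CompleteSpace K]

/-- `t` is the tensor map for which `f k l = e k ⊗ e l` -/
def IsTens (e : Conf n → H) (f : Conf n → Conf n → K) (t : H → H → K) : Prop :=
  ∀ φ χ x y, ⟪f x y, t φ χ⟫_ℂ = ⟪e x, φ⟫_ℂ * ⟪e y, χ⟫_ℂ

section tens

variable {e : Conf n → H} {f : Conf n → Conf n → K} {t : H → H → K}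

theorem exists_tens (he : IsNumberBasis e)
    (hf : IsNumberBasis fun x : Conf n × Conf n => f x.1 x.2) : ∃ t : H → H → K, IsTens e f t := by
  have h : ∀ φ χ : H, ∃ v : K, ∀ x : Conf n × Conf n, ⟪f x.1 x.2, v⟫_ℂ =
      ⟪e x.1, φ⟫_ℂ * ⟪e x.2, χ⟫_ℂ := by
    intro φ χ
    apply exists_vec hf (fun x => ⟪e x.1, φ⟫_ℂ * ⟪e x.2, χ⟫_ℂ)
    simp only [norm_mul, mul_pow]
    exact (parseval_sq he φ).summable.mul_of_nonneg (parseval_sq he χ).summable
      (fun _ => sq_nonneg _) (fun _ => sq_nonneg _)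
  choose t ht using h
  exact ⟨t, fun φ χ x y => ht φ χ (x, y)⟩

theorem fext (hf : IsNumberBasis fun x : Conf n × Conf n => f x.1 x.2) {v w : K}
    (h : ∀ x y, ⟪f x y, v⟫_ℂ = ⟪f x y, w⟫_ℂ) : v = w := ext_nb hf fun i => h i.1 i.2

theorem IsTens.basis (he : IsNumberBasis e)
    (hf : IsNumberBasis fun x : Conf n × Conf n => f x.1 x.2) (ht : IsTens e f t)
    (k l : Conf n) : t (e k) (e l) = f k l := by
  apply fext hf
  intro x y
  rw [ht, orthonormal_iff_ite.1 he.1, orthonormal_iff_ite.1 he.1]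
  have := orthonormal_iff_ite.1 hf.1 (x, y) (k, l)
  simp only at this
  rw [this]
  by_cases h1 : x = k
  · by_cases h2 : y = l
    · simp [h1, h2]
    · simp [h1, h2]
  · simp [h1]

theorem IsTens.add_left (hf : IsNumberBasis fun x : Conf n × Conf n => f x.1 x.2)
    (ht : IsTens e f t) (φ φ' χ : H) : t (φ + φ') χ = t φ χ + t φ' χ := by
  apply fext hf
  intro x y
  rw [inner_add_right, ht, ht, ht, inner_add_right, add_mul]

theorem IsTens.add_right (hf : IsNumberBasis fun x : Conf n × Conf n => f x.1 x.2)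
    (ht : IsTens e f t) (φ χ χ' : H) : t φ (χ + χ') = t φ χ + t φ χ' := by
  apply fext hf
  intro x y
  rw [inner_add_right, ht, ht, ht, inner_add_right, mul_add]

theorem IsTens.smul_left (hf : IsNumberBasis fun x : Conf n × Conf n => f x.1 x.2)
    (ht : IsTens e f t) (c : ℂ) (φ χ : H) : t (c • φ) χ = c • t φ χ := by
  apply fext hf
  intro x y
  rw [inner_smul_right, ht, ht, inner_smul_right, mul_assoc]

theorem IsTens.smul_right (hf : IsNumberBasis fun x : Conf n × Conf n => f x.1 x.2)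
    (ht : IsTens e f t) (c : ℂ) (φ χ : H) : t φ (c • χ) = c • t φ χ := by
  apply fext hf
  intro x y
  rw [inner_smul_right, ht, ht, inner_smul_right]
  ring

theorem summable_inner {e : Conf n → H} (he : IsNumberBasis e) (φ φ' : H) :
    Summable fun x => ‖⟪φ, e x⟫_ℂ * ⟪e x, φ'⟫_ℂ‖ := by
  have h := (parseval_sq he φ).summable.add (parseval_sq he φ').summable
  refine Summable.of_nonneg_of_le (fun _ => norm_nonneg _) (fun x => ?_) h
  rw [norm_mul, norm_inner_symm]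
  nlinarith [sq_nonneg (‖⟪e x, φ⟫_ℂ‖ - ‖⟪e x, φ'⟫_ℂ‖), sq_nonneg ‖⟪e x, φ⟫_ℂ‖,
    sq_nonneg ‖⟪e x, φ'⟫_ℂ‖]

theorem IsTens.inner_tens (he : IsNumberBasis e)
    (hf : IsNumberBasis fun x : Conf n × Conf n => f x.1 x.2) (ht : IsTens e f t)
    (φ χ φ' χ' : H) : ⟪t φ χ, t φ' χ'⟫_ℂ = ⟪φ, φ'⟫_ℂ * ⟪χ, χ'⟫_ℂ := by
  have h1 := parseval hf (t φ χ) (t φ' χ')
  have s := summable_mul_of_summable_norm (summable_inner he φ φ') (summable_inner he χ χ')
  have h2 := (parseval he φ φ').mul (parseval he χ χ') s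
  have e1 : ∀ x : Conf n × Conf n, ⟪t φ χ, f x.1 x.2⟫_ℂ * ⟪f x.1 x.2, t φ' χ'⟫_ℂ =
      ⟪φ, e x.1⟫_ℂ * ⟪e x.1, φ'⟫_ℂ * (⟪χ, e x.2⟫_ℂ * ⟪e x.2, χ'⟫_ℂ) := by
    intro x
    rw [← inner_conj_symm (t φ χ), ht, ht, map_mul, inner_conj_symm, inner_conj_symm]
    ring
  simp only [e1] at h1
  exact h1.unique h2

theorem IsTens.norm (he : IsNumberBasis e)
    (hf : IsNumberBasis fun x : Conf n × Conf n => f x.1 x.2) (ht : IsTens e f t)
    (φ χ : H) : ‖t φ χ‖ = ‖φ‖ * ‖χ‖ := by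
  have h := ht.inner_tens he hf φ χ φ χ
  rw [inner_self_eq_norm_sq_to_K, inner_self_eq_norm_sq_to_K, inner_self_eq_norm_sq_to_K] at h
  have h2 : ‖t φ χ‖ ^ 2 = (‖φ‖ * ‖χ‖) ^ 2 := by
    rw [mul_pow]
    exact_mod_cast h
  exact (sq_eq_sq₀ (norm_nonneg _) (by positivity)).1 h2

/-- `χ ↦ t φ χ` -/
def IsTens.tL (he : IsNumberBasis e)
    (hf : IsNumberBasis fun x : Conf n × Conf n => f x.1 x.2) (ht : IsTens e f t) (φ : H) :
    H →L[ℂ] K :=
  LinearMap.mkContinuous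
    { toFun := fun χ => t φ χ
      map_add' := ht.add_right hf φ
      map_smul' := fun c χ => ht.smul_right hf c φ χ } ‖φ‖ (fun χ => (ht.norm he hf φ χ).le)

/-- `φ ↦ t φ χ` -/
def IsTens.tR (he : IsNumberBasis e)
    (hf : IsNumberBasis fun x : Conf n × Conf n => f x.1 x.2) (ht : IsTens e f t) (χ : H) :
    H →L[ℂ] K :=
  LinearMap.mkContinuous
    { toFun := fun φ => t φ χ
      map_add' := fun φ φ' => ht.add_left hf φ φ' χ
      map_smul' := fun c φ => ht.smul_left hf c φ χ } ‖χ‖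
    (fun φ => ((ht.norm he hf φ χ).trans (mul_comm _ _)).le)

theorem IsTens.tL_apply (he : IsNumberBasis e)
    (hf : IsNumberBasis fun x : Conf n × Conf n => f x.1 x.2) (ht : IsTens e f t) (φ χ : H) :
    ht.tL he hf φ χ = t φ χ := rfl

theorem IsTens.tR_apply (he : IsNumberBasis e)
    (hf : IsNumberBasis fun x : Conf n × Conf n => f x.1 x.2) (ht : IsTens e f t) (φ χ : H) :
    ht.tR he hf χ φ = t φ χ := rfl

/-- two continuous bilinear maps that agree on product bases agree -/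
theorem IsTens.ext₂ {E : Type} [NormedAddCommGroup E] [NormedSpace ℂ E] (he : IsNumberBasis e)
    (hf : IsNumberBasis fun x : Conf n × Conf n => f x.1 x.2) (ht : IsTens e f t)
    {e₁ e₂ : Conf n → H} (h₁ : IsNumberBasis e₁) (h₂ : IsNumberBasis e₂)
    {A B : K →L[ℂ] E} (h : ∀ k l, A (t (e₁ k) (e₂ l)) = B (t (e₁ k) (e₂ l))) : A = B := by
  apply clm_ext hf
  rintro ⟨x, y⟩
  have a1 : ∀ l φ, A (t φ (e₂ l)) = B (t φ (e₂ l)) := by
    intro l φ
    have : A ∘L ht.tR he hf (e₂ l) = B ∘L ht.tR he hf (e₂ l) := clm_ext h₁ fun k => h k l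
    exact DFunLike.congr_fun this φ
  have a2 : ∀ φ χ, A (t φ χ) = B (t φ χ) := by
    intro φ χ
    have : A ∘L ht.tL he hf φ = B ∘L ht.tL he hf φ := clm_ext h₂ fun l => a1 l φ
    exact DFunLike.congr_fun this χ
  have := a2 (e x) (e y)
  rwa [ht.basis he hf] at this

theorem IsTens.isNumberBasis (he : IsNumberBasis e)
    (hf : IsNumberBasis fun x : Conf n × Conf n => f x.1 x.2) (ht : IsTens e f t)
    {e₁ e₂ : Conf n → H} (h₁ : IsNumberBasis e₁) (h₂ : IsNumberBasis e₂) :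
    IsNumberBasis fun x : Conf n × Conf n => t (e₁ x.1) (e₂ x.2) := by
  apply isNumberBasis_of_orth
  · rw [orthonormal_iff_ite]
    rintro ⟨x, y⟩ ⟨x', y'⟩
    simp only
    rw [ht.inner_tens he hf, orthonormal_iff_ite.1 h₁.1, orthonormal_iff_ite.1 h₂.1]
    by_cases a : x = x'
    · by_cases b : y = y'
      · simp [a, b]
      · simp [a, b]
    · simp [a]
  · intro v hv
    have h0 : innerSL ℂ v = (0 : K →L[ℂ] ℂ) := by
      apply ht.ext₂ he hf h₁ h₂
      intro k l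
      rw [innerSL_apply_apply, ← inner_conj_symm, hv (k, l)]
      simp
    have h1 := DFunLike.congr_fun h0 v
    rw [innerSL_apply_apply] at h1
    exact inner_self_eq_zero.1 h1

/-- product operators act factorwise -/
theorem IsTens.product (he : IsNumberBasis e)
    (hf : IsNumberBasis fun x : Conf n × Conf n => f x.1 x.2) (ht : IsTens e f t)
    {e₁ e₂ : Conf n → H} (h₁ : IsNumberBasis e₁) (h₂ : IsNumberBasis e₂)
    {A B : H →L[ℂ] H} {S : K →L[ℂ] K}
    (h : ∀ k l k' l', ⟪t (e₁ k) (e₂ l), S (t (e₁ k') (e₂ l'))⟫_ℂ =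
      ⟪e₁ k, A (e₁ k')⟫_ℂ * ⟪e₂ l, B (e₂ l')⟫_ℂ) (φ χ : H) : S (t φ χ) = t (A φ) (B χ) := by
  have hb' := ht.isNumberBasis he hf h₁ h₂
  have a0 : ∀ k' l', S (t (e₁ k') (e₂ l')) = t (A (e₁ k')) (B (e₂ l')) := by
    intro k' l'
    apply ext_nb hb'
    rintro ⟨k, l⟩
    simp only
    rw [h, ht.inner_tens he hf]
  have a1 : ∀ l φ, S (t φ (e₂ l)) = t (A φ) (B (e₂ l)) := by
    intro l φ
    have : S ∘L ht.tR he hf (e₂ l) = ht.tR he hf (B (e₂ l)) ∘L A := clm_ext h₁ fun k => a0 k l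
    exact DFunLike.congr_fun this φ
  have : S ∘L ht.tL he hf φ = ht.tL he hf (A φ) ∘L B := clm_ext h₂ fun l => a1 l φ
  exact DFunLike.congr_fun this χ

end tens

end

end Vale.Agent.P369Y
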