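import Vale.Agent.P369.H400G.Cov
import Vale.Agent.P369.H400G.Ptr
import Vale.Agent.P369.H400G.Disp
import Vale.Agent.P369.H326.Swap

set_option linter.all false

/-!
P369 (helper400): the output of the beam splitter in new modes.
-/

namespace Vale.Agent.P369Y

open scoped InnerProductSpace Matrix
open Matrix
open Vale.Agent.P369 (Conf up down)
open Vale.Agent.P369.Sys
open Vale.Agent.P369N (exists_basisMap isNumberBasis_phase)

noncomputable section

variable {n : ℕ} {H K : Type} [NormedAddCommGroup H] [InnerProductSpace ℂ H] [CompleteSpace H]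
  [NormedAddCommGroup K] [InnerProductSpace ℂ K] [CompleteSpace K]
  {e : Conf n → H} {f : Conf n → Conf n → K} {t : H → H → K}

theorem inner_opA (ht : IsTens e f t) (τ : Bool) (m : Fin n) (z : Conf n × Conf n) (φ χ : H) :
    ⟪opK f true τ m z, t φ χ⟫_ℂ = ⟪op1 e τ m z.1, φ⟫_ℂ * ⟪e z.2, χ⟫_ℂ := by
  cases τ
  · show ⟪creA f m z.1 z.2, t φ χ⟫_ℂ = ⟪cre e m z.1, φ⟫_ℂ * _
    unfold creA cre
    rw [inner_smul_left, ht, inner_smul_left]
    ring
  · show ⟪annA f m z.1 z.2, t φ χ⟫_ℂ = ⟪ann e m z.1, φ⟫_ℂ * _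
    unfold annA ann
    rw [inner_smul_left, ht, inner_smul_left]
    ring

theorem inner_opB (ht : IsTens e f t) (τ : Bool) (m : Fin n) (z : Conf n × Conf n) (φ χ : H) :
    ⟪opK f false τ m z, t φ χ⟫_ℂ = ⟪e z.1, φ⟫_ℂ * ⟪op1 e τ m z.2, χ⟫_ℂ := by
  cases τ
  · show ⟪creB f m z.1 z.2, t φ χ⟫_ℂ = _ * ⟪cre e m z.2, χ⟫_ℂ
    unfold creB cre
    rw [inner_smul_left, ht, inner_smul_left]
    ring
  · show ⟪annB f m z.1 z.2, t φ χ⟫_ℂ = _ * ⟪ann e m z.2, χ⟫_ℂ
    unfold annB ann
    rw [inner_smul_left, ht, inner_smul_left]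
    ring

/-- the old modes on the new joint number states -/
def Fm (t : H → H → K) (α β : Matrix (Fin n) (Fin n) ℂ) (γA γB : Fin n → ℂ) (eA eB : Conf n → H)
    (s τ : Bool) (m : Fin n) (x : Conf n × Conf n) : K :=
  if s then t (if τ then Ea α β γA eA m x.1 else Ec α β γA eA m x.1) (eB x.2)
  else t (eA x.1) (if τ then Ea α β γB eB m x.2 else Ec α β γB eB m x.2)

theorem isMK_tens (he : IsNumberBasis e)
    (hf : IsNumberBasis fun x : Conf n × Conf n => f x.1 x.2) (ht : IsTens e f t)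
    {α β : Matrix (Fin n) (Fin n) ℂ} {γA γB : Fin n → ℂ} {eA eB : Conf n → H}
    (hA : IsModeChange α β γA e eA) (hB : IsModeChange α β γB e eB) :
    IsMK f α β (fun s => if s then γA else γB) (fun k l => t (eA k) (eB l))
      (Fm t α β γA γB eA eB) := by
  have lR : ∀ (a b : Fin n → ℂ) (u v : Fin n → H) (c : ℂ) (w χ : H),
      t (∑ m, (a m • u m + b m • v m) + c • w) χ =
        ∑ m, (a m • t (u m) χ + b m • t (v m) χ) + c • t w χ := by
    intro a b u v c w χ
    show ht.tR he hf χ (∑ m, (a m • u m + b m • v m) + c • w) =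
      ∑ m, (a m • ht.tR he hf χ (u m) + b m • ht.tR he hf χ (v m)) + c • ht.tR he hf χ w
    rw [map_add, map_sum, map_smul]
    congr 1
    exact Finset.sum_congr rfl fun m _ => by rw [map_add, map_smul, map_smul]
  have lL : ∀ (a b : Fin n → ℂ) (u v : Fin n → H) (c : ℂ) (w φ : H),
      t φ (∑ m, (a m • u m + b m • v m) + c • w) =
        ∑ m, (a m • t φ (u m) + b m • t φ (v m)) + c • t φ w := by
    intro a b u v c w φ
    show ht.tL he hf φ (∑ m, (a m • u m + b m • v m) + c • w) =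
      ∑ m, (a m • ht.tL he hf φ (u m) + b m • ht.tL he hf φ (v m)) + c • ht.tL he hf φ w
    rw [map_add, map_sum, map_smul]
    congr 1
    exact Finset.sum_congr rfl fun m _ => by rw [map_add, map_smul, map_smul]
  constructor
  · intro s τ m x z
    cases s
    · rw [inner_opB ht]
      show _ = ⟪f z.1 z.2, t (eA x.1) (if τ then Ea α β γB eB m x.2 else Ec α β γB eB m x.2)⟫_ℂ
      rw [ht]
      congr 1
      cases τ
      · exact inner_Ec hB m x.2 z.2
      · exact inner_Ea hB m x.2 z.2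
    · rw [inner_opA ht]
      show _ = ⟪f z.1 z.2, t (if τ then Ea α β γA eA m x.1 else Ec α β γA eA m x.1) (eB x.2)⟫_ℂ
      rw [ht]
      congr 1
      cases τ
      · exact inner_Ec hA m x.1 z.1
      · exact inner_Ea hA m x.1 z.1
  · intro s j x
    cases s
    · show annB (fun k l => t (eA k) (eB l)) j x.1 x.2 = _
      have e1 : annB (fun k l => t (eA k) (eB l)) j x.1 x.2 = t (eA x.1) (ann eB j x.2) := by
        unfold annB ann
        rw [ht.smul_right hf]
      rw [e1, ann_eq he hB, lL]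
      rfl
    · show annA (fun k l => t (eA k) (eB l)) j x.1 x.2 = _
      have e1 : annA (fun k l => t (eA k) (eB l)) j x.1 x.2 = t (ann eA j x.1) (eB x.2) := by
        unfold annA ann
        rw [ht.smul_left hf]
      rw [e1, ann_eq he hA, lR]
      rfl
  · intro s j x
    cases s
    · show creB (fun k l => t (eA k) (eB l)) j x.1 x.2 = _
      have e1 : creB (fun k l => t (eA k) (eB l)) j x.1 x.2 = t (eA x.1) (cre eB j x.2) := by
        unfold creB cre
        rw [ht.smul_right hf]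
      rw [e1, cre_eq he hB, lL]
      rfl
    · show creA (fun k l => t (eA k) (eB l)) j x.1 x.2 = _
      have e1 : creA (fun k l => t (eA k) (eB l)) j x.1 x.2 = t (cre eA j x.1) (eB x.2) := by
        unfold creA cre
        rw [ht.smul_left hf]
      rw [e1, cre_eq he hA, lR]
      rfl

theorem exists_us {x : Conf n × Conf n} (hx : x ≠ (0, 0)) :
    ∃ (s : Bool) (m : Fin n) (z : Conf n × Conf n), x = us s m z := by
  by_cases h1 : x.1 = 0
  · have h2 : x.2 ≠ 0 := fun h => hx (Prod.ext h1 h)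
    obtain ⟨m, hm⟩ := Function.ne_iff.1 h2
    refine ⟨false, m, (x.1, down x.2 m), ?_⟩
    unfold us
    simp only [Bool.false_eq_true, if_false]
    rw [up_down' hm]
  · obtain ⟨m, hm⟩ := Function.ne_iff.1 h1
    refine ⟨true, m, (down x.1 m, x.2), ?_⟩
    unfold us
    simp only [if_true]
    rw [up_down' hm]

/-- the vacuum of the new modes is mapped to the vacuum of the new output modes -/
theorem vac_map {η : ℝ} {U : K ≃ₗᵢ[ℂ] K} {g g' : Conf n → Conf n → K}
    (hg : IsNumberBasis fun x : Conf n × Conf n => g x.1 x.2)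
    (hg' : IsNumberBasis fun x : Conf n × Conf n => g' x.1 x.2)
    (h : ∀ s j (x y : Conf n × Conf n), ⟪opK g' s false j x, U (g y.1 y.2)⟫_ℂ =
      ⟪g' x.1 x.2, U (comb η g s true j y)⟫_ℂ) : ∃ c : ℂ, ‖c‖ = 1 ∧ U (g 0 0) = c • g' 0 0 := by
  have ho := orthonormal_iff_ite.1 hg'.1
  have h0 : ∀ s m, opK g s true m (0, 0) = 0 := by
    intro s m
    apply opK_ann_zero
    rintro ⟨z, hz⟩
    unfold us at hz
    cases s
    · simp only [Bool.false_eq_true, if_false, Prod.mk.injEq] at hz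
      have := congrFun hz.2 m
      rw [up_at] at this
      simp at this
    · simp only [if_true, Prod.mk.injEq] at hz
      have := congrFun hz.1 m
      rw [up_at] at this
      simp at this
  have h1 : ∀ x : Conf n × Conf n, x ≠ (0, 0) → ⟪g' x.1 x.2, U (g 0 0)⟫_ℂ = 0 := by
    intro x hx
    obtain ⟨s, m, z, rfl⟩ := exists_us hx
    have h2 := h s m z (0, 0)
    unfold comb at h2
    rw [h0, h0, smul_zero, smul_zero, add_zero, map_zero, inner_zero_right, opK_cre,
      inner_smul_left, Complex.conj_ofReal] at h2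
    rcases mul_eq_zero.1 h2 with h3 | h3
    · exfalso
      have h4 : cs s m z = 0 := by exact_mod_cast h3
      unfold cs at h4
      have h5 : ∀ a : ℕ, Real.sqrt ((a : ℝ) + 1) ≠ 0 := fun a =>
        (Real.sqrt_pos.2 (by positivity)).ne'
      cases s
      · exact h5 _ h4
      · exact h5 _ h4
    · exact h3
  have h2 : U (g 0 0) = ⟪g' 0 0, U (g 0 0)⟫_ℂ • g' 0 0 := by
    apply ext_nb hg'
    intro x
    rw [inner_smul_right]
    have h3 := ho x (0, 0)
    simp only at h3 ⊢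
    rw [h3]
    by_cases hx : x = (0, 0)
    · subst hx; simp
    · rw [if_neg hx, mul_zero, h1 x hx]
  refine ⟨⟪g' 0 0, U (g 0 0)⟫_ℂ, ?_, h2⟩
  have h3 := congrArg norm h2
  have n1 : ‖g 0 0‖ = 1 := hg.1.1 (0, 0)
  have n2 : ‖g' 0 0‖ = 1 := hg'.1.1 (0, 0)
  rw [norm_smul, n2, mul_one, U.norm_map, n1] at h3
  exact h3.symm

/-- beam splitters are unique -/
theorem bs_unique {η : ℝ} (hf : IsNumberBasis fun x : Conf n × Conf n => f x.1 x.2)
    {U U' : K ≃ₗᵢ[ℂ] K} (hU : IsBeamSplitter η f U) (hU' : IsBeamSplitter η f U') : U = U' := by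
  obtain ⟨T, hT⟩ := P369.exists_repr hf
  have hT' : ∀ k l, T (f k l) = P369.ket2 k l := fun k l => hT (k, l)
  have key : ∀ {U : K ≃ₗᵢ[ℂ] K}, IsBeamSplitter η f U → ∀ x y : Conf n × Conf n,
      ⟪f x.1 x.2, U (f y.1 y.2)⟫_ℂ =
        ((P369.ampn (Real.sqrt η) (Real.sqrt (1 - η)) x.1 x.2 y.1 y.2 : ℝ) : ℂ) := by
    intro U hU x y
    rw [← P369.bs_matrix (P369.bs_to hU T hT'), ← hT', ← hT']
    change _ = ⟪T (f x.1 x.2), T (U (T.symm (T (f y.1 y.2))))⟫_ℂ
    rw [T.symm_apply_apply, T.inner_map_map]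
  have h1 : (U.toContinuousLinearEquiv : K →L[ℂ] K) = (U'.toContinuousLinearEquiv : K →L[ℂ] K) := by
    apply clm_ext hf
    intro y
    apply ext_nb hf
    intro x
    exact (key hU x y).trans (key hU' x y).symm
  ext ψ
  exact DFunLike.congr_fun h1 ψ

theorem exists_bsSys {η : ℝ} (h0 : 0 ≤ η) (h1 : η ≤ 1)
    (hf : IsNumberBasis fun x : Conf n × Conf n => f x.1 x.2) :
    ∃ U : K ≃ₗᵢ[ℂ] K, IsBeamSplitter η f U := by
  obtain ⟨T, hT⟩ := P369.exists_repr hf
  have hT' : ∀ k l, T (f k l) = P369.ket2 k l := fun k l => hT (k, l)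
  obtain ⟨U, hU⟩ := P369.exists_bs (n := n) h0 h1
  exact ⟨_, P369.bs_from hU T hT'⟩

/-- the beam splitter in new modes -/
theorem bs_new {η : ℝ} {g g' f₁ : Conf n → Conf n → K} {U P : K ≃ₗᵢ[ℂ] K}
    (hg : IsNumberBasis fun x : Conf n × Conf n => g x.1 x.2)
    (hg' : IsNumberBasis fun x : Conf n × Conf n => g' x.1 x.2)
    (hf₁ : IsNumberBasis fun x : Conf n × Conf n => f₁ x.1 x.2)
    (hP : ∀ x : Conf n × Conf n, P (f₁ x.1 x.2) = g x.1 x.2)
    (h : ∀ s j (x y : Conf n × Conf n), ⟪opK g' s false j x, U (g y.1 y.2)⟫_ℂ =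
      ⟪g' x.1 x.2, U (comb η g s true j y)⟫_ℂ) :
    ∃ (Q : K ≃ₗᵢ[ℂ] K) (c : ℂ), ‖c‖ = 1 ∧ (∀ x : Conf n × Conf n, Q (f₁ x.1 x.2) = c • g' x.1 x.2) ∧
      IsBeamSplitter η f₁ (P.trans (U.trans Q.symm)) := by
  obtain ⟨c, hc, hv⟩ := vac_map hg hg' h
  obtain ⟨Q, hQ⟩ := exists_basisMap hf₁ (isNumberBasis_phase hg' (c := fun _ => c) fun _ => hc)
  have hQ' : ∀ x : Conf n × Conf n, Q (f₁ x.1 x.2) = c • g' x.1 x.2 := fun x => hQ x
  refine ⟨Q, c, hc, hQ', bs_of_rel ?_ ?_⟩
  · show Q.symm (U (P (f₁ 0 0))) = f₁ 0 0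
    have h1 := hP (0, 0)
    have h2 := hQ' (0, 0)
    simp only at h1 h2
    rw [h1, hv, ← h2, Q.symm_apply_apply]
  · intro s m x y
    have aux : ∀ (ψ φ : K), ⟪ψ, (P.trans (U.trans Q.symm)) φ⟫_ℂ = ⟪Q ψ, U (P φ)⟫_ℂ := by
      intro ψ φ
      show ⟪ψ, Q.symm (U (P φ))⟫_ℂ = _
      rw [← Q.inner_map_map, Q.apply_symm_apply]
    rw [aux, aux, hP, hQ']
    have e1 : Q (opK f₁ s false m x) = c • opK g' s false m x := by
      rw [opK_cre, opK_cre, map_smul, hQ', smul_comm]
    have e2 : P (comb η f₁ s true m y) = comb η g s true m y := by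
      have e3 : ∀ s', P (opK f₁ s' true m y) = opK g s' true m y := by
        intro s'
        by_cases hy : y ∈ Set.range (us s' m)
        · obtain ⟨z, rfl⟩ := hy
          rw [opK_ann, opK_ann, map_smul, hP]
        · rw [opK_ann_zero _ _ _ _ hy, opK_ann_zero _ _ _ _ hy, map_zero]
      unfold comb
      rw [map_add, map_smul, map_smul, e3, e3]
    rw [e1, e2, inner_smul_left, inner_smul_left, h]

end

end Vale.Agent.P369Y
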