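import Vale.Agent.P369.H400G.Tens

/-!
P369 (helper47): conjugating a state by a unitary that carries one number basis to another.
-/

namespace Vale.Agent.P369Y

open scoped InnerProductSpace
open Vale.Agent.P369 (Conf up down cj cj_apply cj_inner cj_isPositive negMulLogOp)
open Vale.Agent.P369.Sys

noncomputable section

variable {n : ℕ} {H : Type} [NormedAddCommGroup H] [InnerProductSpace ℂ H]

theorem cj_symm_inner {ι : Type} {V : H ≃ₗᵢ[ℂ] H} {e e₂ : ι → H} (hV : ∀ k, V (e k) = e₂ k)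
    (ρ : H →L[ℂ] H) (k l : ι) : ⟪e k, cj V.symm ρ (e l)⟫_ℂ = ⟪e₂ k, ρ (e₂ l)⟫_ℂ := by
  rw [← hV, ← hV, cj_apply, LinearIsometryEquiv.symm_symm, ← V.inner_map_map,
    V.apply_symm_apply]

theorem cj_cj_symm (V : H ≃ₗᵢ[ℂ] H) (ρ : H →L[ℂ] H) : cj V (cj V.symm ρ) = ρ := by
  ext x
  rw [cj_apply, cj_apply, LinearIsometryEquiv.symm_symm, V.apply_symm_apply, V.apply_symm_apply]

theorem cj_symm_cj (V : H ≃ₗᵢ[ℂ] H) (ρ : H →L[ℂ] H) : cj V.symm (cj V ρ) = ρ := by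
  ext x
  rw [cj_apply, cj_apply, LinearIsometryEquiv.symm_symm, V.symm_apply_apply, V.symm_apply_apply]

theorem cj_isPositive_iff (V : H ≃ₗᵢ[ℂ] H) {ρ : H →L[ℂ] H} :
    (cj V ρ).IsPositive ↔ ρ.IsPositive := by
  refine ⟨fun h => ?_, fun h => cj_isPositive V h⟩
  rw [← cj_symm_cj V ρ]
  exact cj_isPositive V.symm h

theorem cj_symm_isPositive_iff (V : H ≃ₗᵢ[ℂ] H) {ρ : H →L[ℂ] H} :
    (cj V.symm ρ).IsPositive ↔ ρ.IsPositive := cj_isPositive_iff V.symm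

theorem isState_cj_symm_iff {V : H ≃ₗᵢ[ℂ] H} {e e₂ : Conf n → H} (hV : ∀ k, V (e k) = e₂ k)
    {ρ : H →L[ℂ] H} : IsState e (cj V.symm ρ) ↔ IsState e₂ ρ := by
  unfold IsState
  rw [cj_symm_isPositive_iff]
  simp only [cj_symm_inner hV]

theorem finiteEnergy_cj_symm_iff {V : H ≃ₗᵢ[ℂ] H} {e e₂ : Conf n → H}
    (hV : ∀ k, V (e k) = e₂ k) {ρ : H →L[ℂ] H} :
    FiniteEnergy e (cj V.symm ρ) ↔ FiniteEnergy e₂ ρ := by
  unfold FiniteEnergy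
  simp only [cj_symm_inner hV]

section complete

variable [CompleteSpace H]

theorem cj_eq_conj (V : H ≃ₗᵢ[ℂ] H) (ρ : H →L[ℂ] H) : cj V ρ = V.conjStarAlgEquiv ρ := by
  ext x
  rfl

theorem continuous_cj (V : H ≃ₗᵢ[ℂ] H) :
    Continuous (V.conjStarAlgEquiv : (H →L[ℂ] H) → (H →L[ℂ] H)) := by
  have h : (V.conjStarAlgEquiv : (H →L[ℂ] H) → (H →L[ℂ] H)) =
      fun ρ => (V.toContinuousLinearEquiv : H →L[ℂ] H) ∘L ρ ∘L
        (V.symm.toContinuousLinearEquiv : H →L[ℂ] H) := by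
    funext ρ
    rfl
  rw [h]
  fun_prop

theorem negMulLogOp_cj (V : H ≃ₗᵢ[ℂ] H) {ρ : H →L[ℂ] H} (hρ : IsSelfAdjoint ρ) :
    negMulLogOp (cj V ρ) = cj V (negMulLogOp ρ) := by
  unfold negMulLogOp
  rw [cj_eq_conj, cj_eq_conj]
  exact (StarAlgHomClass.map_cfc (R := ℝ) (S := ℝ) (V.conjStarAlgEquiv.restrictScalars ℝ)
    Real.negMulLog ρ (Real.continuous_negMulLog.continuousOn) (continuous_cj V) hρ
    (hρ.map _)).symm

theorem entropy_cj_symm {V : H ≃ₗᵢ[ℂ] H} {e e₂ : Conf n → H} (hV : ∀ k, V (e k) = e₂ k)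
    {ρ : H →L[ℂ] H} (hρ : IsSelfAdjoint ρ) : entropy e (cj V.symm ρ) = entropy e₂ ρ := by
  unfold entropy
  rw [negMulLogOp_cj V.symm hρ]
  simp only [cj_symm_inner hV]

theorem photonNumber_cj_symm {V : H ≃ₗᵢ[ℂ] H} {e e₂ : Conf n → H} (hV : ∀ k, V (e k) = e₂ k)
    {ρ : H →L[ℂ] H} (hρ : IsSelfAdjoint ρ) :
    photonNumber e (cj V.symm ρ) = photonNumber e₂ ρ := by
  unfold photonNumber
  rw [entropy_cj_symm hV hρ]

/-- the version for states -/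
theorem entropy_cj_symm' {V : H ≃ₗᵢ[ℂ] H} {e e₂ : Conf n → H} (hV : ∀ k, V (e k) = e₂ k)
    {ρ : H →L[ℂ] H} (hρ : IsState e₂ ρ) : entropy e (cj V.symm ρ) = entropy e₂ ρ :=
  entropy_cj_symm hV hρ.1.isSelfAdjoint

theorem photonNumber_cj_symm' {V : H ≃ₗᵢ[ℂ] H} {e e₂ : Conf n → H} (hV : ∀ k, V (e k) = e₂ k)
    {ρ : H →L[ℂ] H} (hρ : IsState e₂ ρ) : photonNumber e (cj V.symm ρ) = photonNumber e₂ ρ :=
  photonNumber_cj_symm hV hρ.1.isSelfAdjoint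

end complete

end

end Vale.Agent.P369Y
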